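import Mathlib

set_option autoImplicit false

namespace Vale.Agent.P181.H463

/-- Lower end of the horizontal strip condition: `lam (i+1)`, or `0` in the last row. -/
def nxt {n : ℕ} (lam : Fin n → ℕ) (i : Fin n) : ℕ :=
  if h : (i : ℕ) + 1 < n then lam ⟨(i : ℕ) + 1, h⟩ else 0

/-- The shapes `mu` such that `lam / mu` is a horizontal strip. -/
def strips {n : ℕ} (lam : Fin n → ℕ) : Finset (Fin n → ℕ) :=
  Fintype.piFinset (fun i => Finset.Icc (nxt lam i) (lam i))

/-- The number of semistandard tableaux of shape `lam` (`n` rows) with `N` letters. -/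
def gt (n : ℕ) : ℕ → (Fin n → ℕ) → ℕ
  | 0, lam => if lam = 0 then 1 else 0
  | N + 1, lam => ∑ mu ∈ strips lam, gt n N mu

end Vale.Agent.P181.H463
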