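import Vale.Agent.P181.H162.Dat6
import Vale.Agent.P181.H162.Fill

set_option autoImplicit false

/-! [F2]: guards and padding. -/

namespace Vale.Agent.P181.H162

open Finset Vale.Agent.P181.T6 Vale.Agent.P181.T4

/-- Numbers with a given quotient. -/
theorem card_div_eq {α : Type} [Fintype α] [DecidableEq α] (f : α → ℕ)
    (hf : Function.Injective f) (h c : ℕ) (hh : 0 < h) :
    (univ.filter fun p => f p / h = c).card ≤ h := by
  have h1 : (univ.filter fun p => f p / h = c).card ≤ (Finset.Ico (c * h) (c * h + h)).card := by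
    apply card_le_card_of_injOn f
    · intro p hp
      have hp' := (mem_filter.mp hp).2
      rw [mem_coe, mem_Ico]
      have h2 := Nat.div_add_mod (f p) h
      have h3 := Nat.mod_lt (f p) hh
      rw [hp'] at h2
      rw [mul_comm] at h2
      omega
    · exact fun _ _ _ _ h => hf h
  rw [Nat.card_Ico] at h1
  omega

namespace Dat

variable {e b n : ℕ} {lam : ℕ → ℕ} (D : Dat e b n lam)

theorem h_pos : 0 < D.h := by
  have := D.H.hh
  have := D.H.hl
  omega

theorem card_gd (g : D.KG) : (D.gd g).card ≤ 2 * D.h := by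
  have hx : 0 < D.x := D.H.hx
  have h1 : ∀ v : Fin D.x, (univ.filter fun p : D.Pt => D.sb p = g.1 ∧ D.ub p = v).card ≤ D.h := by
    intro v
    refine le_trans (card_le_card ?_) (card_div_eq D.ix D.ix_inj D.h (g.1 * D.x + v) D.h_pos)
    intro p hp
    rw [mem_filter] at hp ⊢
    refine ⟨mem_univ _, ?_⟩
    have h2 := Nat.div_add_mod (D.ix p / D.h) D.x
    have h3 : D.ix p / D.h / D.x = g.1 := hp.2.1
    have h4 : D.ix p / D.h % D.x = v := hp.2.2
    rw [h3, h4] at h2
    rw [← h2, mul_comm]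
  have h2 : D.gd g ⊆ (univ.filter fun p : D.Pt => D.sb p = g.1 ∧ D.ub p = g.2.1) ∪
      (univ.filter fun p : D.Pt => D.sb p = g.1 ∧ D.ub p = g.2.2.1) := by
    intro p hp
    rw [gd, mem_filter] at hp
    rw [mem_union, mem_filter, mem_filter]
    rcases hp.2.2 with h | h
    · exact Or.inl ⟨mem_univ _, hp.2.1, h⟩
    · exact Or.inr ⟨mem_univ _, hp.2.1, h⟩
  have h3 := (card_le_card h2).trans (card_union_le _ _)
  have h4 := h1 g.2.1
  have h5 := h1 g.2.2.1
  omega

/-- The number of guards through a point. -/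
theorem card_guards (p : D.Pt) : (univ.filter fun g : D.KG => p ∈ D.gd g).card ≤ 4 * D.x := by
  classical
  have h1 : (univ.filter fun g : D.KG => p ∈ D.gd g) ⊆
      (univ.filter fun g : D.KG => D.sb p = g.1 ∧ D.ub p = g.2.1) ∪
      (univ.filter fun g : D.KG => D.sb p = g.1 ∧ D.ub p = g.2.2.1) := by
    intro g hg
    rw [mem_filter, gd, mem_filter] at hg
    rw [mem_union, mem_filter, mem_filter]
    rcases hg.2.2.2 with h | h
    · exact Or.inl ⟨mem_univ _, hg.2.2.1, h⟩
    · exact Or.inr ⟨mem_univ _, hg.2.2.1, h⟩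
  have h2 : (univ.filter fun g : D.KG => D.sb p = g.1 ∧ D.ub p = g.2.1).card ≤ 2 * D.x := by
    have h3 : (univ.filter fun g : D.KG => D.sb p = g.1 ∧ D.ub p = g.2.1).card ≤
        (univ : Finset (Fin D.x × Fin 2)).card := by
      apply card_le_card_of_injOn (fun g => (g.2.2.1, g.2.2.2)) (fun _ _ => mem_coe.2 (mem_univ _))
      rintro ⟨g, u, v, o⟩ hg ⟨g', u', v', o'⟩ hg' h
      have h4 := (mem_filter.mp hg).2
      have h5 := (mem_filter.mp hg').2
      simp only [Prod.mk.injEq] at h h4 h5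
      rw [Prod.mk.injEq, Prod.mk.injEq, Prod.mk.injEq]
      exact ⟨Fin.ext (h4.1.symm.trans h5.1), Fin.ext (h4.2.symm.trans h5.2), h.1, h.2⟩
    rw [card_univ, Fintype.card_prod, Fintype.card_fin, Fintype.card_fin] at h3
    omega
  have h2' : (univ.filter fun g : D.KG => D.sb p = g.1 ∧ D.ub p = g.2.2.1).card ≤ 2 * D.x := by
    have h3 : (univ.filter fun g : D.KG => D.sb p = g.1 ∧ D.ub p = g.2.2.1).card ≤
        (univ : Finset (Fin D.x × Fin 2)).card := by
      apply card_le_card_of_injOn (fun g => (g.2.1, g.2.2.2)) (fun _ _ => mem_coe.2 (mem_univ _))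
      rintro ⟨g, u, v, o⟩ hg ⟨g', u', v', o'⟩ hg' h
      have h4 := (mem_filter.mp hg).2
      have h5 := (mem_filter.mp hg').2
      simp only [Prod.mk.injEq] at h h4 h5
      rw [Prod.mk.injEq, Prod.mk.injEq, Prod.mk.injEq]
      exact ⟨Fin.ext (h4.1.symm.trans h5.1), h.1, Fin.ext (h4.2.symm.trans h5.2), h.2⟩
    rw [card_univ, Fintype.card_prod, Fintype.card_fin, Fintype.card_fin] at h3
    omega
  have h3 := (card_le_card h1).trans (card_union_le _ _)
  omega

/-- [F2] guards and padding. -/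
theorem exists_botF (ld : Fin D.N → ℕ) (hld : ∀ q, ld q ≤ D.La)
    (hs : ∑ q, ld q = ∑ κ : D.KD, D.nc (Sum.inl κ)) :
    ∃ (β : D.KF → Finset D.Pt) (d : Fin D.N → ℕ), (∀ g, D.gd g ⊆ β (Sum.inl g)) ∧
      (∀ κ, (β κ).card = D.nc (Sum.inr κ)) ∧
      (∀ s : Fin D.R × Fin 2, D.rho s.1 s.2 + dg β (Sum.inl s) = e) ∧
      (∀ q : Fin D.N, D.m + ld q + dg β (Sum.inr q) + d q = e) ∧ ∀ q q', d q ≤ d q' + 1 := by
  classical
  have hN : D.Nl ≤ D.N := D.Nl_le
  have hcl := D.H.hcl
  have hl := D.H.hl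
  have hNpos : 0 < D.N := by omega
  have hme : D.m ≤ e := by
    have := D.H.hK
    omega
  -- cells of all fixed columns
  set F : ℕ := ∑ κ : D.KF, D.nc (Sum.inr κ) with hF
  set L : ℕ := ∑ κ : D.KD, D.nc (Sum.inl κ) with hL
  have hFL : L + F ≤ (e - D.m) * D.N := by
    have h1 : L + F = ∑ κ : D.KD ⊕ D.KF, D.nc κ := (Fintype.sum_sum_type _).symm
    have h2 : ∑ κ : D.KD ⊕ D.KF, D.nc κ ≤ Fintype.card (D.KD ⊕ D.KF) * (4 * D.l) := by
      have h3 := sum_le_card_nsmul (univ : Finset (D.KD ⊕ D.KF)) D.nc (4 * D.l)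
        (fun κ _ => D.nc_le κ)
      rwa [card_univ, smul_eq_mul] at h3
    have h3 : Fintype.card (D.KD ⊕ D.KF) * (4 * D.l) ≤
        FC e b D.m D.u D.Y D.x D.G D.P * (4 * D.l) := Nat.mul_le_mul_right _ D.card_fix
    have h4 := D.H.hcells
    have h5 : (e - D.m) * D.Nl ≤ (e - D.m) * D.N := Nat.mul_le_mul_left _ hN
    have h6 : (e - D.m) * D.Nl + D.m * D.Nl = e * D.Nl := by
      rw [← Nat.add_mul, Nat.sub_add_cancel hme]
    omega
  -- the padding columns
  have hPF : D.P * (D.l - D.R) ≤ F := by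
    rw [hF, Fintype.sum_sum_type]
    refine le_trans ?_ (Nat.le_add_left _ _)
    have h3 := card_nsmul_le_sum (univ : Finset (Fin D.P))
      (fun κ => D.nc (Sum.inr (Sum.inr κ))) (D.l - D.R) (fun κ _ => D.le_nc _)
    rwa [card_univ, Fintype.card_fin, smul_eq_mul] at h3
  -- special points
  have hrho : ∀ s : Fin D.R × Fin 2, 8 * D.rho s.1 s.2 ≤ 7 * e := fun s =>
    (D.rho_lt s.1 s.1.2 s.2).2
  set Sp : ℕ := ∑ s : Fin D.R × Fin 2, (e - D.rho s.1 s.2) with hSp
  have hSp_le : Sp ≤ 2 * D.R * e := by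
    have h3 := sum_le_card_nsmul (univ : Finset (Fin D.R × Fin 2))
      (fun s => e - D.rho s.1 s.2) e (fun s _ => Nat.sub_le _ _)
    rw [card_univ, Fintype.card_prod, Fintype.card_fin, Fintype.card_fin, smul_eq_mul] at h3
    have : D.R * 2 * e = 2 * D.R * e := by ring
    omega
  -- the total content
  set T : ℕ := (e - D.m) * D.N + Sp - L - F with hT
  have hTeq : T + L + F = (e - D.m) * D.N + Sp := by omega
  have hTle : T + D.N * (D.La + 4 * D.x + 2) ≤ (e - D.m) * D.N := by
    have h1 := D.H.hP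
    have h2 : D.N * (D.La + 4 * D.x + 2) ≤ b * (D.La + 4 * D.x + 2) :=
      Nat.mul_le_mul_right _ D.N_le
    omega
  set d : Fin D.N → ℕ := fun q => T / D.N + if (q : ℕ) < T % D.N then 1 else 0 with hd
  have hdsum : ∑ q, d q = T := by
    rw [hd]
    rw [sum_add_distrib, sum_const, card_univ, Fintype.card_fin, smul_eq_mul, ← card_filter]
    have h1 : (univ.filter fun q : Fin D.N => (q : ℕ) < T % D.N).card = T % D.N := by
      rw [Fin.card_filter_val_lt]
      exact min_eq_right (Nat.mod_lt _ hNpos).le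
    rw [h1]
    exact Nat.div_add_mod T D.N
  have hdle : ∀ q, d q + D.m + ld q + 4 * D.x ≤ e := by
    intro q
    have h1 : T / D.N + (D.La + 4 * D.x + 2) ≤ e - D.m := by
      have h2 : (T / D.N + (D.La + 4 * D.x + 2)) * D.N ≤ (e - D.m) * D.N := by
        rw [Nat.add_mul]
        have h3 := Nat.div_mul_le_self T D.N
        have h4 : (D.La + 4 * D.x + 2) * D.N = D.N * (D.La + 4 * D.x + 2) := mul_comm _ _
        omega
      exact Nat.le_of_mul_le_mul_right h2 hNpos
    have h5 := hld q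
    have h6 : d q ≤ T / D.N + 1 := by
      simp only [hd]
      split_ifs <;> omega
    omega
  -- the targets
  set g : D.Pt → ℕ := Sum.elim (fun s => e - D.rho s.1 s.2)
    (fun q => e - D.m - ld q - d q) with hg
  set Gs : D.KF → Finset D.Pt := Sum.elim D.gd (fun _ => ∅) with hGs
  have hx := D.H.hxk
  have hdgG : ∀ p, dg Gs p ≤ 4 * D.x := by
    intro p
    refine le_trans (le_of_eq ?_) (D.card_guards p)
    unfold dg
    rw [card_filter, card_filter, Fintype.sum_sum_type]
    have h1 : ∑ κ : Fin D.P, (if p ∈ Gs (Sum.inr κ) then 1 else 0) = 0 := by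
      apply sum_eq_zero
      intro κ _
      rw [if_neg]
      simp [hGs]
    rw [h1, add_zero]
    rfl
  have hfill : ∃ β : D.KF → Finset D.Pt, (∀ c, Gs c ⊆ β c) ∧
      (∀ c, (β c).card = D.nc (Sum.inr c)) ∧ ∀ q, dg β q = g q := by
    refine exists_fill (fun κ : D.KF => D.nc (Sum.inr κ)) Gs g (4 * D.l) e
      (4 * D.x) ?_ (fun κ => D.nc_le _) ?_ hdgG ?_ ?_ ?_ ?_
    · -- sizes
      rintro (κ | κ)
      · show (D.gd κ).card ≤ D.nc (Sum.inr (Sum.inl κ))
        have h1 := D.card_gd κ
        have h2 := D.le_nc (Sum.inr (Sum.inl κ))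
        have h3 := D.H.hh
        have h4 := D.H.hRl
        omega
      · show (∅ : Finset D.Pt).card ≤ _
        rw [card_empty]
        exact Nat.zero_le _
    · intro κ
      have h1 := D.nc_le (Sum.inr κ)
      have h2 : Fintype.card D.Pt = D.R * 2 + D.N := by
        rw [Fintype.card_sum, Fintype.card_prod, Fintype.card_fin, Fintype.card_fin,
          Fintype.card_fin]
      rw [h2]
      omega
    · rintro (s | q)
      · refine (hdgG _).trans ?_
        show 4 * D.x ≤ e - D.rho s.1 s.2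
        have := hrho s
        omega
      · refine (hdgG _).trans ?_
        show 4 * D.x ≤ e - D.m - ld q - d q
        have := hdle q
        omega
    · rintro (s | q)
      · exact Nat.sub_le _ _
      · show e - D.m - ld q - d q ≤ e
        omega
    · -- the sum
      rw [Fintype.sum_sum_type]
      show ∑ s : Fin D.R × Fin 2, (e - D.rho s.1 s.2) + ∑ q, (e - D.m - ld q - d q) = F
      have h1 : ∑ q, (e - D.m - ld q - d q) + (L + T) = (e - D.m) * D.N := by
        rw [← hs, ← hdsum, ← sum_add_distrib, ← sum_add_distrib]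
        have h2 : ∀ q ∈ (univ : Finset (Fin D.N)),
            e - D.m - ld q - d q + (ld q + d q) = e - D.m := by
          intro q _
          have := hdle q
          omega
        rw [sum_congr rfl h2, sum_const, card_univ, Fintype.card_fin, smul_eq_mul, mul_comm]
      rw [← hSp]
      omega
    · -- room
      have h1 := D.H.hroom
      refine lt_of_lt_of_le h1 ?_
      rw [Fintype.sum_sum_type]
      refine le_trans ?_ (Nat.le_add_left _ _)
      have h3 := card_nsmul_le_sum (univ : Finset (Fin D.P))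
        (fun κ => D.nc (Sum.inr (Sum.inr κ)) - (Gs (Sum.inr κ)).card) (D.l - D.R) (fun κ _ => by
          have h4 : (Gs (Sum.inr κ)).card = 0 := by simp [hGs]
          show D.l - D.R ≤ D.nc (Sum.inr (Sum.inr κ)) - (Gs (Sum.inr κ)).card
          rw [h4, Nat.sub_zero]
          exact D.le_nc _)
      rwa [card_univ, Fintype.card_fin, smul_eq_mul] at h3
  obtain ⟨β, hβ1, hβ2, hβ3⟩ := hfill
  refine ⟨β, d, fun g => hβ1 (Sum.inl g), hβ2, ?_, ?_, ?_⟩
  · intro s
    rw [hβ3]
    show D.rho s.1 s.2 + (e - D.rho s.1 s.2) = e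
    have := hrho s
    omega
  · intro q
    rw [hβ3]
    show D.m + ld q + (e - D.m - ld q - d q) + d q = e
    have := hdle q
    omega
  · intro q q'
    simp only [hd]
    split_ifs <;> omega

end Dat

end Vale.Agent.P181.H162
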