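import Vale.Agent.P181.H463.Cls
import Vale.Agent.P181.T6.Spec

set_option autoImplicit false

open Finset Filter
open Vale.Agent.P181.T6 Vale.Agent.P181.T4

namespace Vale.Agent.P181.H463

theorem ex_of_lt {n : ℕ} (lam : Fin n → ℕ) {i : ℕ} (h : i < n) : ex lam i = lam ⟨i, h⟩ := by
  unfold ex
  rw [dif_pos h]

theorem ex_of_ge {n : ℕ} (lam : Fin n → ℕ) {i : ℕ} (h : n ≤ i) : ex lam i = 0 := by
  unfold ex
  rw [dif_neg (not_lt.mpr h)]

theorem sum_ex {n : ℕ} (lam : Fin n → ℕ) : ∑ r ∈ range n, ex lam r = ∑ i, lam i := by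
  rw [← Fin.sum_univ_eq_sum_range]
  exact sum_congr rfl fun i _ => ex_of_lt lam i.2

/-- The choice of the length class. -/
theorem choose_l (ε : ℝ) (hε : 0 < ε) (hε' : ε ≤ 1 / 2) : ∀ᶠ a : ℕ in atTop,
    ∀ (k b n : ℕ) (lam : Fin n → ℕ), Hyp ε a k b n lam → ∃ l, 1 ≤ l ∧ l ≤ n ∧
      ((k : ℝ) * b) ≤ (1 + Real.log a) * (l * ex lam (l - 1)) ∧
      (a : ℝ) ^ ε ≤ (1 + Real.log a) * l ∧ 4 * ex lam (4 * l - 1) ≤ ex lam (l - 1) ∧
      ∀ R ≤ l, ∑ r ∈ range R, ex lam r + (l - R) * ex lam (l - 1) ≤ k * b := by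
  filter_upwards [eventually_ge_atTop 1] with a ha k b n lam hyp
  obtain ⟨hna, hka, hka', hba, hba', hanti, hsum, h0⟩ := hyp
  have ha' : (1 : ℝ) ≤ a := by exact_mod_cast ha
  have hapos : (0 : ℝ) < a := by linarith
  have hkpos : (0 : ℝ) < k := lt_of_lt_of_le (Real.rpow_pos_of_pos hapos _) hka
  have hbpos : (0 : ℝ) < b := lt_of_lt_of_le (Real.rpow_pos_of_pos hapos _) hba
  have hkb : (0 : ℝ) < (k : ℝ) * b := mul_pos hkpos hbpos
  have hn : 0 < n := by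
    rcases Nat.eq_zero_or_pos n with h | h
    · subst h
      rw [Fin.sum_univ_zero] at hsum
      rw [← Nat.cast_mul, ← hsum] at hkb
      simp at hkb
    · exact h
  obtain ⟨i, hmax, hi⟩ := exists_class hn lam
  have hex : ex lam ((i : ℕ) + 1 - 1) = lam i := by
    rw [Nat.add_sub_cancel]
    exact ex_of_lt lam i.2
  have hlog : Real.log n ≤ Real.log a :=
    Real.log_le_log (by exact_mod_cast hn) (by exact_mod_cast hna)
  have hL : (0 : ℝ) ≤ 1 + Real.log a := by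
    have := Real.log_nonneg ha'
    linarith
  have h1 : ((k : ℝ) * b) ≤ (1 + Real.log a) * ((((i : ℕ) + 1 : ℕ) : ℝ) * lam i) := by
    rw [hsum] at hi
    push_cast at hi ⊢
    calc (k : ℝ) * b ≤ (((i : ℕ) : ℝ) + 1) * lam i * (1 + Real.log n) := hi
      _ ≤ (((i : ℕ) : ℝ) + 1) * lam i * (1 + Real.log a) := by gcongr
      _ = _ := by ring
  refine ⟨(i : ℕ) + 1, Nat.succ_pos _, i.2, ?_, ?_, ?_, ?_⟩
  · rw [hex]
    exact h1
  · -- the length
    have h2 : (lam i : ℝ) ≤ (a : ℝ) ^ (-ε) * ((k : ℝ) * b) := by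
      refine le_trans ?_ h0
      rw [ex_of_lt lam hn]
      exact_mod_cast hanti (show (⟨0, hn⟩ : Fin n) ≤ i from Nat.zero_le _)
    have h3 : ((k : ℝ) * b) ≤ ((1 + Real.log a) * (((i : ℕ) + 1 : ℕ) : ℝ)) *
        ((a : ℝ) ^ (-ε) * ((k : ℝ) * b)) := by
      refine le_trans h1 ?_
      rw [← mul_assoc]
      apply mul_le_mul_of_nonneg_left h2
      positivity
    have h4 : (1 : ℝ) ≤ ((1 + Real.log a) * (((i : ℕ) + 1 : ℕ) : ℝ)) * (a : ℝ) ^ (-ε) := by
      have h5 : 1 * ((k : ℝ) * b) ≤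
          (((1 + Real.log a) * (((i : ℕ) + 1 : ℕ) : ℝ)) * (a : ℝ) ^ (-ε)) * ((k : ℝ) * b) := by
        rw [one_mul]
        refine le_trans h3 (le_of_eq ?_)
        ring
      exact le_of_mul_le_mul_right h5 hkb
    have h6 : (a : ℝ) ^ (-ε) * (a : ℝ) ^ ε = 1 := by
      rw [← Real.rpow_add hapos]
      simp
    have h7 := mul_le_mul_of_nonneg_right h4 (Real.rpow_nonneg hapos.le ε)
    rw [one_mul, mul_assoc, h6, mul_one] at h7
    exact h7
  · rw [hex]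
    by_cases h : 4 * ((i : ℕ) + 1) - 1 < n
    · rw [ex_of_lt lam h]
      exact four_mul_le i hmax ⟨_, h⟩ (by
        show 4 * ((i : ℕ) + 1) ≤ 4 * ((i : ℕ) + 1) - 1 + 1
        omega)
    · rw [ex_of_ge lam (not_lt.mp h)]
      exact Nat.zero_le _
  · intro R hR
    rw [hex]
    have h2 : ((i : ℕ) + 1 - R) * lam i ≤ ∑ r ∈ Ico R ((i : ℕ) + 1), ex lam r := by
      rw [← Nat.card_Ico, ← smul_eq_mul]
      apply card_nsmul_le_sum
      intro r hr
      rw [mem_Ico] at hr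
      have hr' : r < n := lt_of_lt_of_le hr.2 i.2
      rw [ex_of_lt lam hr']
      exact hanti (show (⟨r, hr'⟩ : Fin n) ≤ i from Nat.lt_succ_iff.mp hr.2)
    calc ∑ r ∈ range R, ex lam r + ((i : ℕ) + 1 - R) * lam i
        ≤ ∑ r ∈ range R, ex lam r + ∑ r ∈ Ico R ((i : ℕ) + 1), ex lam r :=
          Nat.add_le_add_left h2 _
      _ = ∑ r ∈ range ((i : ℕ) + 1), ex lam r := by
          rw [range_eq_Ico, range_eq_Ico, sum_Ico_consecutive _ (Nat.zero_le R) hR]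
      _ ≤ ∑ r ∈ range n, ex lam r :=
          sum_le_sum_of_subset (range_subset_range.mpr i.2)
      _ = k * b := by rw [sum_ex, hsum]

end Vale.Agent.P181.H463
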