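import Vale.Agent.P181.H463.Tests
import Vale.Agent.P181.H162.Par6

set_option autoImplicit false

/-! [LT]: the addresses of the letters and the blocks of the tests. -/

namespace Vale.Agent.P181.H463

open Finset

/-- The rank of a number in a finite set. -/
def rn (A : Finset ℕ) (q : ℕ) : ℕ := (A.filter fun q' => q' < q).card

theorem rn_lt {A : Finset ℕ} {q : ℕ} (hq : q ∈ A) : rn A q < A.card := by
  unfold rn
  apply card_lt_card
  rw [ssubset_iff_subset_ne]
  refine ⟨filter_subset _ _, fun h => ?_⟩
  rw [← h] at hq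
  exact lt_irrefl _ (mem_filter.mp hq).2

theorem rn_strict {A : Finset ℕ} {q q' : ℕ} (hq : q ∈ A) (hqq : q < q') :
    rn A q < rn A q' := by
  unfold rn
  apply card_lt_card
  rw [ssubset_iff_subset_ne]
  constructor
  · intro x hx
    rw [mem_filter] at hx ⊢
    exact ⟨hx.1, hx.2.trans hqq⟩
  · intro h
    have h1 : q ∈ A.filter fun x => x < q' := mem_filter.mpr ⟨hq, hqq⟩
    rw [← h] at h1
    exact lt_irrefl _ (mem_filter.mp h1).2

theorem rn_inj {A : Finset ℕ} {q q' : ℕ} (hq : q ∈ A) (hq' : q' ∈ A)
    (h : rn A q = rn A q') : q = q' := by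
  rcases lt_trichotomy q q' with h1 | h1 | h1
  · have := rn_strict hq h1
    omega
  · exact h1
  · have := rn_strict hq' h1
    omega

/-- The number of `q < N` with `q % 4 = k`. -/
theorem card_mod_four' (N : ℕ) (k : Fin 4) :
    ((range N).filter fun q => q % 4 = (k : ℕ)).card = (N + 3 - k) / 4 := by
  rw [card_filter]
  have hk := k.2
  induction N with
  | zero =>
    rw [sum_range_zero]
    omega
  | succ N ih =>
    rw [sum_range_succ, ih]
    split_ifs <;> omega

/-- **[LT]** -/
theorem tests_stmt : Vale.Agent.P181.H162.TestsStmt := by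
  classical
  intro b u m Y hu hY hb
  set cl : ℕ → Fin 4 := fun q => ⟨q % 4, Nat.mod_lt _ (by norm_num)⟩ with hcl
  set dig : ℕ → Fin m → Fin u := fun q t =>
    ⟨q / 4 / u ^ (t : ℕ) % u, Nat.mod_lt _ hu⟩ with hdig
  set A : Fin 4 → Fin m → Fin u → Finset ℕ := fun k t x =>
    (range b).filter fun q => cl q = k ∧ dig q t = x with hA
  have hmem : ∀ q < b, ∀ t, q ∈ A (cl q) t (dig q t) := fun q hq t =>
    mem_filter.mpr ⟨mem_range.mpr hq, rfl, rfl⟩
  have hcard : ∀ (N : ℕ) (k : Fin 4),
      ((range N).filter fun q => cl q = k).card = (N + 3 - k) / 4 := by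
    intro N k
    rw [← card_mod_four' N k]
    congr 1
    apply filter_congr
    intro q _
    rw [Fin.ext_iff]
  refine ⟨cl, dig, fun q t => ⟨rn (A (cl q) t (dig q t)) q % Y, Nat.mod_lt _ hY⟩,
    fun q t => rn (A (cl q) t (dig q t)) q / Y, fun k t x => (A k t x).card / Y + 1,
    ?_, ?_, ?_, ?_, ?_⟩
  · intro q hq q' hq' h1 h2
    have h3 : q % 4 = q' % 4 := congrArg Fin.val h1
    have h4 : q / 4 = q' / 4 := by
      apply eq_of_digits u m _ _ (by omega) (by omega)
      intro t ht
      exact congrArg Fin.val (h2 ⟨t, ht⟩)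
    omega
  · intro q hq t
    have h1 := rn_lt (hmem q hq t)
    have h2 := Nat.div_le_div_right (c := Y) h1.le
    show rn (A (cl q) t (dig q t)) q / Y < (A (cl q) t (dig q t)).card / Y + 1
    omega
  · intro q hq q' hq' t h1 h2 h3 h4
    have h5 : rn (A (cl q) t (dig q t)) q / Y = rn (A (cl q') t (dig q' t)) q' / Y := h3
    have h6 : rn (A (cl q) t (dig q t)) q % Y = rn (A (cl q') t (dig q' t)) q' % Y :=
      congrArg Fin.val h4
    have h7 : rn (A (cl q) t (dig q t)) q = rn (A (cl q') t (dig q' t)) q' := by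
      rw [← Nat.div_add_mod (rn (A (cl q) t (dig q t)) q) Y, h5, h6, Nat.div_add_mod]
    have h8 := hmem q' hq' t
    rw [← h1, ← h2] at h7 h8
    exact rn_inj (hmem q hq t) h8 h7
  · intro k t
    have h1 : ∑ x, (A k t x).card = ((range b).filter fun q => cl q = k).card := by
      rw [card_eq_sum_card_fiberwise (f := fun q => dig q t) (t := univ)
        (fun x _ => mem_univ _)]
      apply sum_congr rfl
      intro x _
      congr 1
      ext q
      simp only [hA, mem_filter, mem_range, and_assoc]
    have h2 : ∑ x, (A k t x).card ≤ b / 4 + 1 := by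
      rw [h1, hcard b k]
      omega
    show ∑ x, ((A k t x).card / Y + 1) ≤ _
    rw [sum_add_distrib, sum_const, card_univ, Fintype.card_fin, smul_eq_mul, mul_one]
    apply Nat.add_le_add_right
    refine le_trans ?_ (Nat.div_le_div_right h2)
    rw [Nat.le_div_iff_mul_le hY, sum_mul]
    exact sum_le_sum fun x _ => Nat.div_mul_le_self _ _
  · intro N k
    rw [hcard N k]
    have := k.2
    omega

end Vale.Agent.P181.H463
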