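import Vale.Agent.P181.H463.Rigid

set_option autoImplicit false

/-! T6 / LB6: rigidity with bundled zones (one zone column may miss many rows). The special points
are `Fin R × J`, their exponents `rho r j` are pairwise different, and the special point `(r', j')`
lies in at most `min (rho r' j') (rho i j')` columns in which the row `i` is missing. -/

namespace Vale.Agent.P181.H463

open Vale.Agent.P181.T6

/-- **Rigidity, bundled zones.** -/
theorem rigid_core_bundled {R : ℕ} {J Q : Type} [Fintype J]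
    (mark cap : (Fin R × J) ⊕ Q → ℕ → ℕ) (j0 : J)
    (rho : Fin R → J → ℕ) (K : ℕ)
    (hcapN : ∀ (q : Q) (r : Fin R), cap (Sum.inr q) r ≤ K)
    (hmarkS : ∀ (r : Fin R) (j : J), rho r j ≤ mark (Sum.inl (r, j)) (r : ℕ))
    (hcapS : ∀ (r : Fin R) (j : J) (i : Fin R),
      cap (Sum.inl (r, j)) i ≤ min (rho r j) (rho i j))
    (hK : ∀ r j, K < rho r j)
    (hinj : ∀ r j r' j', rho r j = rho r' j' → r = r' ∧ j = j')
    (hsep : ∀ p q : Q, p ≠ q → ∃ r : Fin R, 0 < mark (Sum.inr q) r ∧ cap (Sum.inr p) r = 0)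
    (π : Equiv.Perm (Fin R)) (σ : Equiv.Perm ((Fin R × J) ⊕ Q))
    (h : ∀ p (r : Fin R), mark (σ p) r ≤ cap p (π r)) : π = 1 ∧ σ = 1 := by
  classical
  have key : ∀ s : Fin R × J, ∃ s' : Fin R × J, σ (Sum.inl s') = Sum.inl s ∧
      rho s.1 s.2 ≤ rho s'.1 s'.2 ∧ rho s.1 s.2 ≤ rho (π s.1) s'.2 := by
    rintro ⟨r, j⟩
    obtain ⟨p, hp⟩ := σ.surjective (Sum.inl (r, j))
    have h1 := h p r
    rw [hp] at h1
    have h2 : rho r j ≤ cap p (π r) := le_trans (hmarkS r j) h1
    rcases p with ⟨r', j'⟩ | q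
    · have h3 := hcapS r' j' (π r)
      exact ⟨(r', j'), hp, le_trans h2 (le_trans h3 (min_le_left _ _)),
        le_trans h2 (le_trans h3 (min_le_right _ _))⟩
    · have h3 := hcapN q (π r)
      have := hK r j
      omega
  choose f hf hf1 hf2 using key
  have finj : Function.Injective f := by
    intro s s' hss
    have h1 := hf s
    have h2 := hf s'
    rw [hss, h2] at h1
    exact (Sum.inl_injective h1).symm
  have fbij : Function.Bijective f := Finite.injective_iff_bijective.mp finj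
  have hsum : ∑ s : Fin R × J, rho (f s).1 (f s).2 = ∑ s : Fin R × J, rho s.1 s.2 :=
    (Equiv.sum_comp (Equiv.ofBijective f fbij) (fun s : Fin R × J => rho s.1 s.2))
  have heq : ∀ s ∈ (Finset.univ : Finset (Fin R × J)), rho s.1 s.2 = rho (f s).1 (f s).2 :=
    (Finset.sum_eq_sum_iff_of_le (f := fun s : Fin R × J => rho s.1 s.2)
      (g := fun s : Fin R × J => rho (f s).1 (f s).2) (fun s _ => hf1 s)).mp hsum.symm
  have fid : ∀ s, f s = s := by
    intro s
    obtain ⟨h1, h2⟩ := hinj _ _ _ _ (heq s (Finset.mem_univ s))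
    exact Prod.ext h1.symm h2.symm
  have hS : ∀ s, σ (Sum.inl s) = Sum.inl s := by
    intro s
    have h1 := hf s
    rw [fid s] at h1
    exact h1
  have hπ : π = 1 := by
    have h1 : ∀ r : Fin R, rho r j0 ≤ rho (π r) j0 := by
      intro r
      have h2 := hf2 (r, j0)
      rw [fid] at h2
      exact h2
    have h2 : ∑ r : Fin R, rho (π r) j0 = ∑ r : Fin R, rho r j0 :=
      Equiv.sum_comp π (fun r : Fin R => rho r j0)
    have h3 : ∀ r ∈ (Finset.univ : Finset (Fin R)), rho r j0 = rho (π r) j0 :=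
      (Finset.sum_eq_sum_iff_of_le (f := fun r : Fin R => rho r j0)
        (g := fun r : Fin R => rho (π r) j0) (fun r _ => h1 r)).mp h2.symm
    ext r
    rw [Equiv.Perm.one_apply]
    rw [← (hinj _ _ _ _ (h3 r (Finset.mem_univ r))).1]
  refine ⟨hπ, ?_⟩
  subst hπ
  ext p
  rw [Equiv.Perm.one_apply]
  rcases p with s | p
  · exact hS s
  · rcases hq : σ (Sum.inr p) with s | q
    · exfalso
      have h1 : σ (Sum.inr p) = σ (Sum.inl s) := hq.trans (hS s).symm
      have h2 := σ.injective h1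
      exact absurd h2 (by simp)
    · by_cases hpq : p = q
      · rw [hpq]
      · exfalso
        obtain ⟨r, hr, hr'⟩ := hsep p q hpq
        have h1 := h (Sum.inr p) r
        rw [hq, Equiv.Perm.one_apply, hr'] at h1
        omega

/-- **Rigidity of a design with bundled zones.** -/
theorem rigid_bundled {m R N : ℕ} {T C J : Type} [Fintype T] [Fintype J] [Fintype C]
    (D : Design m R N T (Fin R × J) C) (j0 : J) (rho : Fin R → J → ℕ) (K : ℕ)
    (hcapN : ∀ (q : Fin N) (r : Fin R), D.cap (Sum.inr q) r ≤ K)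
    (hmarkS : ∀ (r : Fin R) (j : J), rho r j ≤ D.mark (Sum.inl (r, j)) (r : ℕ))
    (hcapS : ∀ (r : Fin R) (j : J) (i : Fin R),
      D.cap (Sum.inl (r, j)) i ≤ min (rho r j) (rho i j))
    (hK : ∀ r j, K < rho r j)
    (hinj : ∀ r j r' j', rho r j = rho r' j' → r = r' ∧ j = j')
    (hsep : ∀ p q : Fin N, p ≠ q →
      ∃ r : Fin R, 0 < D.mark (Sum.inr q) r ∧ D.cap (Sum.inr p) r = 0) : D.Rigid :=
  fun π σ h => rigid_core_bundled D.mark D.cap j0 rho K hcapN hmarkS hcapS hK hinj hsep π σ h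

end Vale.Agent.P181.H463
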