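import Vale.Agent.P181.R2.H207.FinalOf
import Vale.Agent.P181.T4.Asm

set_option autoImplicit false

namespace Vale.Agent.P181.H463

/-- Foulkes' inequality for `(a-1)^2 ≤ b`. -/
theorem big_stmt : Vale.Agent.P181.T4.BigStmt :=
  fun _ _ _ lam h => Vale.Agent.P181.FR.foulkes_quadratic h lam

end Vale.Agent.P181.H463
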