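import Vale.Agent.P181.H463.Ssyt

set_option autoImplicit false
set_option linter.unusedSectionVars false

open Finset

namespace Vale.Agent.P181.H463

variable {C : Type*} [Fintype C]

/-- The size of the shape is the sum of the row lengths and the sum of the column lengths. -/
theorem sum_rows (n : ℕ) (ℓ : C → ℕ) (hℓ : ∀ c, ℓ c ≤ n) : ∑ i, rows n ℓ i = ∑ c, ℓ c := by
  classical
  unfold rows
  simp only [card_filter]
  rw [sum_comm]
  refine sum_congr rfl fun c _ => ?_
  rw [← card_filter]
  have h : (univ.filter fun i : Fin n => (i : ℕ) < ℓ c) =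
      (univ : Finset (Fin (ℓ c))).map (Fin.castLEEmb (hℓ c)) := by
    ext i
    simp only [mem_filter, mem_univ, true_and, mem_map]
    constructor
    · intro h
      exact ⟨⟨i, h⟩, Fin.ext rfl⟩
    · rintro ⟨j, rfl⟩
      exact j.2
  rw [h, card_map, card_univ, Fintype.card_fin]

/-- The rows of the shape after removing the first `R` rows. -/
theorem rows_sub {m R : ℕ} (len : C → ℕ) (i : Fin (m - R)) :
    rows (m - R) (fun c => len c - R) i =
      rows m len ⟨(i : ℕ) + R, by have := i.2; omega⟩ := by
  unfold rows
  congr 1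
  ext c
  simp only [mem_filter, mem_univ, true_and]
  omega

/-- Column lengths of a shape `lam` with columns `Fin L`. -/
def collen {m : ℕ} (lam : Fin m → ℕ) (L : ℕ) (c : Fin L) : ℕ :=
  (univ.filter fun i : Fin m => (c : ℕ) < lam i).card

theorem collen_le {m : ℕ} (lam : Fin m → ℕ) (L : ℕ) (c : Fin L) : collen lam L c ≤ m := by
  unfold collen
  exact (card_filter_le _ _).trans (by rw [card_univ, Fintype.card_fin])

theorem lt_collen {m : ℕ} {lam : Fin m → ℕ} (hlam : Antitone lam) {L : ℕ} (i : Fin m)
    (c : Fin L) : (i : ℕ) < collen lam L c ↔ (c : ℕ) < lam i := by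
  unfold collen
  constructor
  · intro h
    by_contra hc
    push Not at hc
    have h1 : (univ.filter fun i : Fin m => (c : ℕ) < lam i) ⊆ Finset.Iio i := by
      intro j hj
      rw [mem_Iio]
      by_contra hij
      push Not at hij
      have h2 := (mem_filter.mp hj).2
      have h3 := hlam hij
      omega
    have h2 := card_le_card h1
    rw [Fin.card_Iio] at h2
    omega
  · intro h
    have h1 : Finset.Iic i ⊆ (univ.filter fun i : Fin m => (c : ℕ) < lam i) := by
      intro j hj
      rw [mem_Iic] at hj
      rw [mem_filter]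
      exact ⟨mem_univ j, lt_of_lt_of_le h (hlam hj)⟩
    have h2 := card_le_card h1
    rw [Fin.card_Iic] at h2
    omega

theorem rows_collen {m : ℕ} {lam : Fin m → ℕ} (hlam : Antitone lam) {L : ℕ}
    (hL : ∀ i, lam i ≤ L) : rows m (collen lam L) = lam := by
  funext i
  unfold rows
  simp only [lt_collen hlam]
  have h : (univ.filter fun c : Fin L => (c : ℕ) < lam i) =
      (univ : Finset (Fin (lam i))).map (Fin.castLEEmb (hL i)) := by
    ext c
    simp only [mem_filter, mem_univ, true_and, mem_map]
    constructor
    · intro h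
      exact ⟨⟨c, h⟩, Fin.ext rfl⟩
    · rintro ⟨j, rfl⟩
      exact j.2
  rw [h, card_map, card_univ, Fintype.card_fin]

end Vale.Agent.P181.H463
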