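import Vale.Agent.P181.H463.Exists
import Vale.Agent.P181.H463.Rows
import Vale.Agent.P181.R2.H188.W2

set_option autoImplicit false
set_option linter.unusedSectionVars false

/-!
If every linearly independent family of products of lower minors of column degree `d` has at most
`P` members then `gt n N η ≤ binom * P`.
-/

namespace Vale.Agent.P181.H463

open Vale.Agent.P181.H188W

theorem choose_form (m N : ℕ) (h : N = 0 → m = 0) :
    (N + m - 1).choose m = (m + N - 1).choose (N - 1) := by
  rcases Nat.eq_zero_or_pos N with h0 | h0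
  · subst h0
    have := h rfl
    subst this
    rfl
  · have e : N + m - 1 = m + (N - 1) := by omega
    have e' : m + N - 1 = m + (N - 1) := by omega
    rw [e, e']
    exact Nat.choose_symm_add

theorem gt_le_of_family {n N P : ℕ} (η : Fin n → ℕ) (hη : Antitone η) (d : Fin N → ℕ)
    (hd : ∀ i j, d i ≤ d j + 1) (hs : ∑ q, d q = ∑ i, η i)
    (H : ∀ (C ι : Type) (_ : Fintype C) (_ : Fintype ι) (len : C → ℕ) (hlen : ∀ c, len c ≤ n),
      (∀ i : Fin n, (Finset.univ.filter fun c => (i : ℕ) < len c).card = η i) →
      ∀ J : ι → (c : C) → Fin (len c) → Fin N,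
      (∀ β q, ∑ c, (Finset.univ.filter fun s => J β c s = q).card = d q) →
      LinearIndependent ℂ (fun (β : ι) (z : Fin N → Fin n → ℂ) =>
        (∏ c, dt (hlen c) (J β c)) z) → Fintype.card ι ≤ P) :
    gt n N η ≤ ((∑ i, η i) + N - 1).choose (N - 1) * P := by
  have hle : ∀ i, η i ≤ ∑ i, η i := fun i =>
    Finset.single_le_sum (fun i _ => Nat.zero_le (η i)) (Finset.mem_univ i)
  have hlen : ∀ c, collen η (∑ i, η i) c ≤ n := collen_le η _
  have hrows : rows n (collen η (∑ i, η i)) = η := rows_collen hη hle
  have hsum : ∑ c, collen η (∑ i, η i) c = ∑ i, η i := by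
    rw [← sum_rows n _ hlen, hrows]
  obtain ⟨κ, hκ, T, hT, hli, hgt⟩ := exists_products_fun hlen N d hd (by rw [hs, hsum])
  rw [hrows, hsum, choose_form] at hgt
  · refine hgt.trans (Nat.mul_le_mul_left _ ?_)
    refine H (Fin (∑ i, η i)) κ inferInstance hκ (collen η (∑ i, η i)) hlen
      (fun i => congrFun hrows i) T ?_ ?_
    · intro β q
      rw [← hT β]
      unfold cnt cw
      refine Finset.sum_congr rfl fun c _ => ?_
      rw [Finset.card_filter]
    · have e : (fun (β : κ) (z : Fin N → Fin n → ℂ) => (∏ c, dt (hlen c) (T β c)) z) =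
          (fun k (p : Fin N → Fin n → ℂ) => ∏ c, Matrix.det (Matrix.of fun j k' :
            Fin (collen η (∑ i, η i) c) => p (T k c j) (Fin.castLE (hlen c) k'))) := by
        funext β z
        rw [Finset.prod_apply]
        rfl
      rw [e]
      exact hli
  · intro h0
    subst h0
    rw [← hs]
    exact Finset.sum_eq_zero fun i _ => i.elim0

end Vale.Agent.P181.H463
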