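import Vale.Agent.P181.H463.CutRev
import Vale.Agent.P181.T7.Spec

set_option autoImplicit false

namespace Vale.Agent.P181.H463

/-- **(CutRev)** -/
theorem cut_rev_stmt : Vale.Agent.P181.T7.CutRev :=
  fun _ _ _ _ hR hna hlam => cut_rev hR hna hlam

end Vale.Agent.P181.H463
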