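import Vale.Agent.P181.H539.Weyl
import Vale.Agent.P181.H921.Col
import Vale.Agent.P181.T4.Asm

set_option autoImplicit false

/-! T7: putting rows back on top of a shape (reverse of cutting). -/

namespace Vale.Agent.P181.H463

open Finset
open Vale.Agent.P181.H539 Vale.Agent.P181.H921 Vale.Agent.P181.T4

/-- One more row on top and one more letter. -/
theorem gt_tail_le {n : ℕ} : ∀ (N : ℕ) (lam : Fin (n + 1) → ℕ), Antitone lam →
    gt n N (fun i => lam i.succ) ≤ gt (n + 1) (N + 1) lam := by
  intro N
  induction N with
  | zero =>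
    intro lam hlam
    show (if (fun i : Fin n => lam i.succ) = 0 then 1 else 0) ≤
      ∑ mu ∈ strips lam, if mu = 0 then 1 else 0
    split_ifs with h
    · have h0 : (0 : Fin (n + 1) → ℕ) ∈ strips lam := by
        rw [mem_strips]
        intro i
        refine ⟨?_, Nat.zero_le _⟩
        unfold nxt
        split_ifs with hi
        · have h1 := congrFun h ⟨i, by omega⟩
          simp only [Pi.zero_apply] at h1
          exact le_of_eq h1
        · exact le_refl _
      calc 1 = if (0 : Fin (n + 1) → ℕ) = 0 then 1 else 0 := by rw [if_pos rfl]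
        _ ≤ _ := single_le_sum (f := fun mu : Fin (n + 1) → ℕ => if mu = 0 then 1 else 0)
          (fun _ _ => Nat.zero_le _) h0
    · exact Nat.zero_le _
  | succ N ih =>
    intro lam hlam
    have htl : Antitone (fun i : Fin n => lam i.succ) := by
      intro i j hij
      exact hlam (Fin.succ_le_succ_iff.mpr hij)
    show ∑ mu ∈ strips (fun i : Fin n => lam i.succ), gt n N mu ≤
      ∑ mu ∈ strips lam, gt (n + 1) (N + 1) mu
    have hinj : Set.InjOn (fun mu : Fin n → ℕ => (Fin.cons (lam 0) mu : Fin (n + 1) → ℕ))
        (strips (fun i : Fin n => lam i.succ)) := by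
      intro f _ g _ h
      exact (Fin.cons_right_injective (α := fun _ => ℕ) (lam 0)) h
    have hsub : (strips (fun i : Fin n => lam i.succ)).image
        (fun mu : Fin n → ℕ => (Fin.cons (lam 0) mu : Fin (n + 1) → ℕ)) ⊆ strips lam := by
      intro x hx
      rw [mem_image] at hx
      obtain ⟨mu, hmu, rfl⟩ := hx
      rw [mem_strips] at hmu ⊢
      intro i
      refine Fin.cases ?_ (fun j => ?_) i
      · rw [Fin.cons_zero]
        exact ⟨nxt_le hlam 0, le_refl _⟩
      · rw [Fin.cons_succ]
        have h1 := hmu j
        have h2 : nxt lam j.succ = nxt (fun i : Fin n => lam i.succ) j := by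
          unfold nxt
          by_cases hj : (j : ℕ) + 1 < n
          · rw [dif_pos hj, dif_pos (by rw [Fin.val_succ]; omega)]
            congr 1
          · rw [dif_neg hj, dif_neg (by rw [Fin.val_succ]; omega)]
        rw [h2]
        exact h1
    calc ∑ mu ∈ strips (fun i : Fin n => lam i.succ), gt n N mu
        ≤ ∑ mu ∈ strips (fun i : Fin n => lam i.succ),
            gt (n + 1) (N + 1) (Fin.cons (lam 0) mu : Fin (n + 1) → ℕ) := by
          apply sum_le_sum
          intro mu hmu
          have h1 : Antitone (Fin.cons (lam 0) mu : Fin (n + 1) → ℕ) := by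
            have h2 : (Fin.cons (lam 0) mu : Fin (n + 1) → ℕ) ∈ strips lam :=
              hsub (mem_image_of_mem _ hmu)
            exact strips_antitone hlam h2
          have h3 := ih (Fin.cons (lam 0) mu) h1
          simpa only [Fin.cons_succ] using h3
      _ = ∑ x ∈ (strips (fun i : Fin n => lam i.succ)).image
            (fun mu : Fin n → ℕ => (Fin.cons (lam 0) mu : Fin (n + 1) → ℕ)),
            gt (n + 1) (N + 1) x := by
          rw [sum_image hinj]
      _ ≤ _ := sum_le_sum_of_subset hsub

/-- `R` more rows on top and `R` more letters. -/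
theorem gt_drop_le (f : ℕ → ℕ) (hf : Antitone f) : ∀ (R n m N : ℕ), m = n + R →
    gt n N (fun i : Fin n => f (R + i)) ≤ gt m (N + R) (fun i : Fin m => f i) := by
  intro R
  induction R with
  | zero =>
    intro n m N hm
    subst hm
    simp only [Nat.zero_add, Nat.add_zero]
    exact le_refl _
  | succ R ih =>
    intro n m N hm
    have h1 := gt_tail_le N (fun i : Fin (n + 1) => f (R + i)) (fun i j hij => hf (by
      have : (i : ℕ) ≤ j := hij
      omega))
    have h2 := ih (n + 1) m (N + 1) (by omega)
    have h3 : (fun i : Fin n => f (R + 1 + i)) =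
        fun i : Fin n => (fun i : Fin (n + 1) => f (R + i)) i.succ := by
      funext i
      show f (R + 1 + i) = f (R + (i.succ : ℕ))
      rw [Fin.val_succ]
      congr 1
      omega
    rw [h3]
    refine le_trans h1 (le_trans h2 (le_of_eq ?_))
    congr 1
    omega

/-- One more letter costs at most `(L + 1) ^ n`. -/
theorem gt_succ_le {n N L : ℕ} (hn : n ≤ N) {lam : Fin n → ℕ} (hl : Antitone lam)
    (hL : ∀ i, lam i ≤ L) : gt n (N + 1) lam ≤ (L + 1) ^ n * gt n N lam := by
  have h1 := gt_step hn hl
  have h2 : ∏ k ∈ range N, (pad lam k + (N - k)) ≤ (L + 1) ^ n * N.factorial := by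
    have h3 : ∏ k ∈ range N, (pad lam k + (N - k)) ≤
        ∏ k ∈ range N, ((if k < n then L + 1 else 1) * (N - k)) := by
      apply prod_le_prod' 
      intro k hk
      rw [mem_range] at hk
      split_ifs with hkn
      · rw [pad_of_lt lam hkn]
        have h4 := hL ⟨k, hkn⟩
        have h5 : 1 ≤ N - k := by omega
        nlinarith
      · rw [pad_of_ge lam (not_lt.mp hkn)]
        omega
    refine le_trans h3 ?_
    rw [prod_mul_distrib]
    have h6 : ∏ k ∈ range N, (N - k) = N.factorial := by
      rw [← prod_range_add_one_eq_factorial, ← prod_range_reflect]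
      apply prod_congr rfl
      intro k hk
      rw [mem_range] at hk
      omega
    have h7 : ∏ k ∈ range N, (if k < n then L + 1 else 1) = (L + 1) ^ n := by
      rw [prod_ite, prod_const, prod_const_one, mul_one]
      congr 1
      have h8 : (range N).filter (fun k => k < n) = range n := by
        ext k
        simp only [mem_filter, mem_range]
        omega
      rw [h8, card_range]
    rw [h6, h7]
  have h3 : N.factorial * gt n (N + 1) lam ≤ N.factorial * ((L + 1) ^ n * gt n N lam) := by
    rw [h1]
    calc gt n N lam * ∏ k ∈ range N, (pad lam k + (N - k))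
        ≤ gt n N lam * ((L + 1) ^ n * N.factorial) := Nat.mul_le_mul_left _ h2
      _ = _ := by ring
  exact Nat.le_of_mul_le_mul_left h3 (Nat.factorial_pos N)

theorem gt_add_le {n N L : ℕ} (hn : n ≤ N) {lam : Fin n → ℕ} (hl : Antitone lam)
    (hL : ∀ i, lam i ≤ L) (R : ℕ) : gt n (N + R) lam ≤ (L + 1) ^ (n * R) * gt n N lam := by
  induction R with
  | zero => simp
  | succ R ih =>
    calc gt n (N + (R + 1)) lam ≤ (L + 1) ^ n * gt n (N + R) lam :=
          gt_succ_le (N := N + R) (hn.trans (Nat.le_add_right N R)) hl hL
      _ ≤ (L + 1) ^ n * ((L + 1) ^ (n * R) * gt n N lam) := Nat.mul_le_mul_left _ ih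
      _ = _ := by
        rw [← mul_assoc, ← pow_add]
        congr 2
        ring

/-- **Reverse cut.** -/
theorem cut_rev {a n R : ℕ} (hR : R ≤ n) (hna : n ≤ a) {lam : Fin n → ℕ} (hlam : Antitone lam) :
    gt (n - R) a (low R lam) ≤ (T4.ex lam 0 + 1) ^ (a * R) * gt n a lam := by
  have hanti : Antitone (T4.ex lam) := by
    intro i j hij
    unfold T4.ex
    split_ifs with h1 h2
    · exact hlam hij
    · omega
    · exact Nat.zero_le _
    · exact le_refl _
  have hlow : Antitone (low R lam) := by
    intro i j hij
    apply hanti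
    have : (i : ℕ) ≤ j := hij
    omega
  have h1 : gt (n - R) (a - R + R) (low R lam) ≤
      (T4.ex lam 0 + 1) ^ ((n - R) * R) * gt (n - R) (a - R) (low R lam) :=
    gt_add_le (by omega) hlow (fun i => hanti (Nat.zero_le _)) R
  have h2 := gt_drop_le (T4.ex lam) hanti R (n - R) n (a - R) (by omega)
  rw [Nat.sub_add_cancel (by omega : R ≤ a)] at h1 h2
  have h3 : (fun i : Fin n => T4.ex lam i) = lam := by
    funext i
    unfold T4.ex
    rw [dif_pos i.2]
  rw [h3] at h2
  calc gt (n - R) a (low R lam)
      ≤ (T4.ex lam 0 + 1) ^ ((n - R) * R) * gt (n - R) (a - R) (low R lam) := h1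
    _ ≤ (T4.ex lam 0 + 1) ^ (a * R) * gt n a lam := by
      apply Nat.mul_le_mul
      · apply Nat.pow_le_pow_right (Nat.succ_pos _)
        apply Nat.mul_le_mul_right
        omega
      · exact h2

end Vale.Agent.P181.H463
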