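import Vale.Agent.P181.H463.LowStmt
import Vale.Agent.P181.H463.Big
import Vale.Agent.P181.H539.Upper
import Vale.Agent.P181.H502.EStmt
import Vale.Agent.P181.H921.Num

set_option autoImplicit false

/-!
P181, T4: everything except the existence of frames.
-/

namespace Vale.Agent.P181.H463

open Vale.Agent.P181.T4 Vale.Agent.P181.H280

theorem up_stmt : UpStmt := fun n N _ hl => Vale.Agent.P181.H539.finrank_HW_le_gt n N hl

theorem all_of_frame (hF : FrameStmt) (ε : ℝ) (hε : 0 < ε) :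
    ∀ᶠ a : ℕ in Filter.atTop, ∀ b : ℕ,
      (a : ℝ) + (a : ℝ) ^ ε ≤ b →
      ({lam : Fin a → ℕ | Antitone lam ∧ ∑ i, lam i = a * b ∧
          ¬ plethMult a b a lam ≤ plethMult b a a lam}.ncard : ℝ) ≤
        (a : ℝ) ^ (ε - 1) *
          ({lam : Fin a → ℕ | Antitone lam ∧ ∑ i, lam i = a * b}.ncard : ℝ) :=
  final Vale.Agent.P181.H502.e_stmt Vale.Agent.P181.H921.num_stmt (low_stmt_of hF) up_stmt
    big_stmt ε hε

end Vale.Agent.P181.H463
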