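import Vale.Agent.P181.H463.Pol

set_option autoImplicit false
set_option linter.unusedSectionVars false

/-!
The balanced column degree has the largest dimension, for every family of spaces of polynomials
which is stable under polarizations.
-/

open MvPolynomial

namespace Vale.Agent.P181.H463

variable {K : Type*} [Field K] [CharZero K] {ρ σ : Type*} [Fintype ρ] [DecidableEq ρ]
  [DecidableEq σ] [Fintype σ]

/-- A family of spaces of polynomials, indexed by the column degree, stable under
polarizations. -/
structure Stable (H : (σ → ℕ) → Submodule K (MvPolynomial (ρ × σ) K)) : Prop where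
  deg : ∀ d, H d ≤ MZ K ρ (fun j => (d j : ℤ))
  pol : ∀ (d : σ → ℕ) (i j : σ), i ≠ j → ∀ f ∈ H (d + Pi.single j 1),
    pol K i j f ∈ H (d + Pi.single i 1)
  fin : ∀ d, Module.Finite K (H d)

theorem Stable.step {H : (σ → ℕ) → Submodule K (MvPolynomial (ρ × σ) K)} (hH : Stable H)
    (d : σ → ℕ) {i j : σ} (hij : i ≠ j) (hd : d i ≤ d j) :
    Module.finrank K (H (d + Pi.single j 1)) ≤ Module.finrank K (H (d + Pi.single i 1)) := by
  have := hH.fin (d + Pi.single i 1)
  let φ : H (d + Pi.single j 1) →ₗ[K] H (d + Pi.single i 1) :=
    ((Vale.Agent.P181.H463.pol K i j :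
      Derivation K (MvPolynomial (ρ × σ) K) (MvPolynomial (ρ × σ) K)) :
        MvPolynomial (ρ × σ) K →ₗ[K] MvPolynomial (ρ × σ) K).restrict (fun f hf =>
          hH.pol d i j hij f hf)
  refine LinearMap.finrank_le_finrank_of_injective (f := φ) ?_
  rw [← LinearMap.ker_eq_bot, LinearMap.ker_eq_bot']
  intro f hf
  have h0 : Vale.Agent.P181.H463.pol K i j (f : MvPolynomial (ρ × σ) K) = 0 :=
    congrArg Subtype.val hf
  have := pol_inj hij (d := fun k => ((d + Pi.single j 1 : σ → ℕ) k : ℤ)) ?_
    (hH.deg _ f.2) h0
  · exact Subtype.ext this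
  · simp only [Pi.add_apply, Pi.single_eq_same, Pi.single_eq_of_ne hij, add_zero]
    push_cast
    omega

/-- The dimension is maximal at a balanced column degree. -/
theorem Stable.le_balanced {H : (σ → ℕ) → Submodule K (MvPolynomial (ρ × σ) K)} (hH : Stable H)
    {β : σ → ℕ} (hβ : ∀ i j, β i ≤ β j + 1) (d : σ → ℕ) (hd : ∑ j, d j = ∑ j, β j) :
    Module.finrank K (H d) ≤ Module.finrank K (H β) := by
  obtain ⟨k, hk⟩ : ∃ k, ∑ j, (d j - β j) = k := ⟨_, rfl⟩
  induction k generalizing d with
  | zero =>
    have h1 : ∀ j, d j ≤ β j := by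
      intro j
      have := (Finset.sum_eq_zero_iff.mp hk) j (Finset.mem_univ j)
      omega
    have h2 : d = β := by
      funext j
      by_contra hne
      have hlt : d j < β j := lt_of_le_of_ne (h1 j) hne
      have : ∑ j, d j < ∑ j, β j :=
        Finset.sum_lt_sum (fun i _ => h1 i) ⟨j, Finset.mem_univ j, hlt⟩
      omega
    rw [h2]
  | succ k ih =>
    obtain ⟨j, hj⟩ : ∃ j, β j < d j := by
      by_contra hno
      push Not at hno
      have : ∑ j, (d j - β j) = 0 :=
        Finset.sum_eq_zero fun j _ => Nat.sub_eq_zero_of_le (hno j)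
      omega
    obtain ⟨i, hi⟩ : ∃ i, d i < β i := by
      by_contra hno
      push Not at hno
      have : ∑ j, β j < ∑ j, d j :=
        Finset.sum_lt_sum (fun i _ => hno i) ⟨j, Finset.mem_univ j, hj⟩
      omega
    have hij : i ≠ j := by
      rintro rfl
      omega
    set c : σ → ℕ := fun s => if s = j then d j - 1 else d s with hc
    have hdc : d = c + Pi.single j 1 := by
      funext s
      by_cases hs : s = j
      · subst hs
        simp only [hc, Pi.add_apply, Pi.single_eq_same, if_true]
        omega
      · simp only [hc, Pi.add_apply, Pi.single_eq_of_ne hs, if_neg hs, add_zero]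
    have hci : c i = d i := by simp only [hc, if_neg hij]
    have hcj : c j = d j - 1 := by simp only [hc, if_true]
    have h3 := hβ i j
    have hle : c i ≤ c j := by omega
    have hstep := hH.step c hij hle
    rw [← hdc] at hstep
    refine hstep.trans (ih (c + Pi.single i 1) ?_ ?_)
    · rw [← hd]
      conv_rhs => rw [hdc]
      simp only [Pi.add_apply, Finset.sum_add_distrib, Finset.sum_pi_single', Finset.mem_univ,
        if_true]
    · have e : ∀ s, (c + Pi.single i 1 : σ → ℕ) s - β s + (if s = j then 1 else 0) =
          d s - β s := by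
        intro s
        by_cases hs : s = j
        · subst hs
          simp only [Pi.add_apply, Pi.single_eq_of_ne hij.symm, add_zero, if_true, hcj]
          omega
        · by_cases hsi : s = i
          · subst hsi
            simp only [Pi.add_apply, Pi.single_eq_same, if_neg hs, add_zero, hci]
            omega
          · simp only [Pi.add_apply, Pi.single_eq_of_ne hsi, if_neg hs, add_zero, hc]
      have h4 := Finset.sum_congr rfl (fun s (_ : s ∈ (Finset.univ : Finset σ)) => e s)
      rw [Finset.sum_add_distrib, Finset.sum_ite_eq' Finset.univ j, if_pos (Finset.mem_univ j),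
        hk] at h4
      omega

theorem card_piAntidiag_univ (n : ℕ) :
    ((Finset.univ : Finset σ).piAntidiag n).card = (Fintype.card σ + n - 1).choose n := by
  have h := Finset.card_finsuppAntidiag_nat_eq_choose (s := (Finset.univ : Finset σ)) n
  rw [Finset.finsuppAntidiag, Finset.card_map, Finset.card_attach, Finset.card_univ] at h
  exact h

/-- Counting: a linearly independent family of column-homogeneous elements of total degree `S` has
at most (number of column degrees) × (dimension at the balanced degree) members. -/
theorem Stable.card_le {H : (σ → ℕ) → Submodule K (MvPolynomial (ρ × σ) K)} (hH : Stable H)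
    {β : σ → ℕ} (hβ : ∀ i j, β i ≤ β j + 1) {κ : Type*} [Fintype κ]
    (b : κ → MvPolynomial (ρ × σ) K) (D : κ → σ → ℕ) (hb : ∀ k, b k ∈ H (D k))
    (hD : ∀ k, ∑ j, D k j = ∑ j, β j) (hli : LinearIndependent K b) :
    Fintype.card κ ≤
      ((Finset.univ : Finset σ).piAntidiag (∑ j, β j)).card * Module.finrank K (H β) := by
  classical
  have h1 : Fintype.card κ = ∑ d ∈ (Finset.univ : Finset σ).piAntidiag (∑ j, β j),
      ((Finset.univ : Finset κ).filter (fun k => D k = d)).card := by
    rw [← Finset.card_univ]
    refine Finset.card_eq_sum_card_fiberwise fun k _ => ?_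
    exact Finset.mem_coe.2 (Finset.mem_piAntidiag.2 ⟨hD k, fun i _ => Finset.mem_univ i⟩)
  rw [h1, ← smul_eq_mul, ← Finset.sum_const]
  refine Finset.sum_le_sum fun d hd => ?_
  have hds : ∑ j, d j = ∑ j, β j := (Finset.mem_piAntidiag.mp hd).1
  refine le_trans ?_ (hH.le_balanced hβ d hds)
  have := hH.fin d
  have h2 : LinearIndependent K
      (fun k : {k // D k = d} => (⟨b k, by have := hb k; rwa [k.2] at this⟩ : H d)) := by
    rw [← LinearMap.linearIndependent_iff (H d).subtype (Submodule.ker_subtype _)]
    exact hli.comp (fun k : {k // D k = d} => (k : κ)) Subtype.val_injective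
  have h3 := h2.fintype_card_le_finrank
  rwa [Fintype.card_subtype] at h3

end Vale.Agent.P181.H463
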