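import Mathlib.NumberTheory.Harmonic.Bounds
import Mathlib.Data.Fintype.Lattice
import Vale.Agent.P181.H463.Rows

/-! T6 (a): choice of the length class. `l = i + 1` maximises `l * lam (l - 1)`. -/

namespace Vale.Agent.P181.H463

/-- There is a row `i` with `(i+1) * lam i` maximal, and then `(i+1) * lam i * (1 + log n)` is at
least the size of `lam`. -/
theorem exists_class {n : ℕ} (hn : 0 < n) (lam : Fin n → ℕ) :
    ∃ i : Fin n, (∀ j : Fin n, ((j : ℕ) + 1) * lam j ≤ ((i : ℕ) + 1) * lam i) ∧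
      ((∑ j, lam j : ℕ) : ℝ) ≤ ((((i : ℕ) + 1) * lam i : ℕ) : ℝ) * (1 + Real.log n) := by
  have : Nonempty (Fin n) := ⟨⟨0, hn⟩⟩
  obtain ⟨i, hi⟩ := Finite.exists_max (fun j : Fin n => ((j : ℕ) + 1) * lam j)
  refine ⟨i, hi, ?_⟩
  set M : ℕ := ((i : ℕ) + 1) * lam i with hM
  have h1 : ((∑ j, lam j : ℕ) : ℝ) ≤ ∑ j : Fin n, (M : ℝ) * (((j : ℕ) : ℝ) + 1)⁻¹ := by
    push_cast
    apply Finset.sum_le_sum
    intro j _
    have h2 : ((((j : ℕ) + 1) * lam j : ℕ) : ℝ) ≤ (M : ℝ) := by exact_mod_cast hi j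
    push_cast at h2
    have h3 : (0 : ℝ) < ((j : ℕ) : ℝ) + 1 := by positivity
    rw [← div_eq_mul_inv, le_div_iff₀ h3]
    nlinarith
  have h4 : ∑ j : Fin n, (M : ℝ) * (((j : ℕ) : ℝ) + 1)⁻¹ = (M : ℝ) * ((harmonic n : ℚ) : ℝ) := by
    rw [← Finset.mul_sum, harmonic]
    congr 1
    push_cast
    rw [Fin.sum_univ_eq_sum_range (fun j => ((j : ℝ) + 1)⁻¹) n]
  have h5 : ((harmonic n : ℚ) : ℝ) ≤ 1 + Real.log n := by
    exact_mod_cast harmonic_le_one_add_log n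
  calc ((∑ j, lam j : ℕ) : ℝ) ≤ (M : ℝ) * ((harmonic n : ℚ) : ℝ) := by rw [← h4]; exact h1
    _ ≤ (M : ℝ) * (1 + Real.log n) := by gcongr

/-- Four times further down the rows are four times shorter. -/
theorem four_mul_le {n : ℕ} {lam : Fin n → ℕ} (i : Fin n)
    (hmax : ∀ j : Fin n, ((j : ℕ) + 1) * lam j ≤ ((i : ℕ) + 1) * lam i)
    (j : Fin n) (hj : 4 * ((i : ℕ) + 1) ≤ (j : ℕ) + 1) : 4 * lam j ≤ lam i := by
  have h1 : 4 * ((i : ℕ) + 1) * lam j ≤ ((i : ℕ) + 1) * lam i :=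
    (Nat.mul_le_mul_right _ hj).trans (hmax j)
  have h2 : ((i : ℕ) + 1) * (4 * lam j) ≤ ((i : ℕ) + 1) * lam i := by
    calc ((i : ℕ) + 1) * (4 * lam j) = 4 * ((i : ℕ) + 1) * lam j := by ring
      _ ≤ _ := h1
  exact Nat.le_of_mul_le_mul_left h2 (Nat.succ_pos _)

/-- The columns `c` with `lam i / 4 ≤ c < lam i` have length in `[i+1, 4(i+1))`. -/
theorem class_window {n : ℕ} {lam : Fin n → ℕ} (hlam : Antitone lam) (i : Fin n)
    (hmax : ∀ j : Fin n, ((j : ℕ) + 1) * lam j ≤ ((i : ℕ) + 1) * lam i) {L : ℕ} (c : Fin L)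
    (h1 : lam i ≤ 4 * (c : ℕ)) (h2 : (c : ℕ) < lam i) :
    (i : ℕ) + 1 ≤ collen lam L c ∧ collen lam L c < 4 * ((i : ℕ) + 1) := by
  refine ⟨(lt_collen hlam i c).mpr h2, ?_⟩
  by_contra hc
  push Not at hc
  have h3 := collen_le lam L c
  have h4 : 4 * ((i : ℕ) + 1) - 1 < n := by omega
  have h5 : (c : ℕ) < lam ⟨4 * ((i : ℕ) + 1) - 1, h4⟩ := by
    rw [← lt_collen (L := L) hlam ⟨4 * ((i : ℕ) + 1) - 1, h4⟩ c]
    show 4 * ((i : ℕ) + 1) - 1 < collen lam L c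
    omega
  have h6 := four_mul_le i hmax ⟨4 * ((i : ℕ) + 1) - 1, h4⟩ (by
    show 4 * ((i : ℕ) + 1) ≤ 4 * ((i : ℕ) + 1) - 1 + 1
    omega)
  omega

end Vale.Agent.P181.H463
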