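import Vale.Agent.P181.H463.All
import Vale.Agent.P181.H162.Out

set_option autoImplicit false

/-!
P181, T4: Foulkes' inequality for almost all partitions, `b ≥ a + a ^ ε`.
-/

namespace Vale.Agent.P181.H463

open Vale.Agent.P181.T4 Vale.Agent.P181.H280

theorem frame_stmt : FrameStmt := fun _ _ _ _ _ _ _ _ h1 h2 h3 h4 h5 h6 h7 =>
  Vale.Agent.P181.H162.frameFor_of_typ h1 h2 h3 h4 h5 h6 h7

theorem low_stmt : LowStmt := low_stmt_of frame_stmt

theorem almost_all (ε : ℝ) (hε : 0 < ε) :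
    ∀ᶠ a : ℕ in Filter.atTop, ∀ b : ℕ,
      (a : ℝ) + (a : ℝ) ^ ε ≤ b →
      ({lam : Fin a → ℕ | Antitone lam ∧ ∑ i, lam i = a * b ∧
          ¬ plethMult a b a lam ≤ plethMult b a a lam}.ncard : ℝ) ≤
        (a : ℝ) ^ (ε - 1) *
          ({lam : Fin a → ℕ | Antitone lam ∧ ∑ i, lam i = a * b}.ncard : ℝ) :=
  all_of_frame frame_stmt ε hε

end Vale.Agent.P181.H463
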