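import Vale.Agent.P181.H463.GtDef

set_option autoImplicit false
set_option linter.unusedSectionVars false

/-!
A family of fillings of a shape, given by its column lengths, with strictly increasing columns,
which is counted by `gt` and determined by the contents of the rows.
-/

open Finset

namespace Vale.Agent.P181.H463

variable {C : Type*} [Fintype C]

/-- The row lengths of the shape with column lengths `ℓ`. -/
def rows (n : ℕ) (ℓ : C → ℕ) (i : Fin n) : ℕ := (univ.filter fun c => (i : ℕ) < ℓ c).card

theorem card_exact (n : ℕ) (ℓ : C → ℕ) (hℓ : ∀ c, ℓ c ≤ n) (i : Fin n) :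
    (univ.filter fun c => ℓ c = (i : ℕ) + 1).card + nxt (rows n ℓ) i = rows n ℓ i := by
  classical
  have h1 : nxt (rows n ℓ) i = (univ.filter fun c => (i : ℕ) + 1 < ℓ c).card := by
    unfold nxt
    split_ifs with h
    · rfl
    · symm
      rw [card_eq_zero, filter_eq_empty_iff]
      intro c _ hc
      have := hℓ c
      omega
  rw [h1, rows, ← card_union_of_disjoint]
  · congr 1
    ext c
    simp only [mem_union, mem_filter, mem_univ, true_and]
    omega
  · rw [disjoint_filter]
    intro c _ h2 h3
    omega

theorem exists_shape (n : ℕ) (ℓ : C → ℕ) (hℓ : ∀ c, ℓ c ≤ n) (μ : Fin n → ℕ)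
    (hμ : μ ∈ strips (rows n ℓ)) :
    ∃ ℓ' : C → ℕ, (∀ c, ℓ' c ≤ ℓ c) ∧ (∀ c, ℓ c ≤ ℓ' c + 1) ∧ rows n ℓ' = μ := by
  classical
  rw [strips, Fintype.mem_piFinset] at hμ
  have h1 : ∀ i : Fin n, ∃ S : Finset C, S ⊆ (univ.filter fun c => ℓ c = (i : ℕ) + 1) ∧
      S.card = rows n ℓ i - μ i := by
    intro i
    refine exists_subset_card_eq ?_
    have h2 := card_exact n ℓ hℓ i
    have h3 := mem_Icc.mp (hμ i)
    omega
  choose S hS hcard using h1
  have hmem : ∀ i c, c ∈ S i → ℓ c = (i : ℕ) + 1 := fun i c h => (mem_filter.mp (hS i h)).2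
  refine ⟨fun c => if ∃ i, c ∈ S i then ℓ c - 1 else ℓ c, ?_, ?_, ?_⟩
  · intro c
    dsimp only
    split_ifs <;> omega
  · intro c
    dsimp only
    split_ifs <;> omega
  · funext i
    have h4 : (univ.filter fun c => (i : ℕ) < (if ∃ i, c ∈ S i then ℓ c - 1 else ℓ c)) =
        (univ.filter fun c => (i : ℕ) < ℓ c) \ S i := by
      ext c
      simp only [mem_filter, mem_univ, true_and, mem_sdiff]
      constructor
      · intro h
        split_ifs at h with he
        · refine ⟨by omega, fun hc => ?_⟩
          have := hmem i c hc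
          omega
        · exact ⟨h, fun hc => he ⟨i, hc⟩⟩
      · rintro ⟨h, hc⟩
        split_ifs with he
        · obtain ⟨i', hi'⟩ := he
          have h5 := hmem i' c hi'
          have h6 : (i : ℕ) ≠ (i' : ℕ) := fun e => hc (Fin.ext e ▸ hi')
          omega
        · exact h
    have h5 : S i ⊆ (univ.filter fun c => (i : ℕ) < ℓ c) := by
      intro c hc
      rw [mem_filter]
      exact ⟨mem_univ c, by rw [hmem i c hc]; omega⟩
    rw [rows, h4, card_sdiff_of_subset h5, hcard i]
    have h3 := mem_Icc.mp (hμ i)
    have : rows n ℓ i = (univ.filter fun c => (i : ℕ) < ℓ c).card := rfl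
    omega

/-- The number of letters `j` in the row `r` of the filling `T`. -/
def ev (ℓ : C → ℕ) (T : C → ℕ → ℕ) (r j : ℕ) : ℕ := (univ.filter fun c => r < ℓ c ∧ T c r = j).card

theorem exists_fam (n : ℕ) (N : ℕ) : ∀ ℓ : C → ℕ, (∀ c, ℓ c ≤ n) →
    ∃ (κ : Type) (_ : Fintype κ) (T : κ → C → ℕ → ℕ), Fintype.card κ = gt n N (rows n ℓ) ∧
      (∀ k c r, r < ℓ c → T k c r < N) ∧
      (∀ k c r s, r < s → s < ℓ c → T k c r < T k c s) ∧
      Function.Injective (fun k => ev ℓ (T k)) := by
  classical
  induction N with
  | zero =>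
    intro ℓ hℓ
    by_cases h0 : rows n ℓ = 0
    · have h1 : ∀ c, ℓ c = 0 := by
        intro c
        by_contra hc
        have hn : 0 < n := by have := hℓ c; omega
        have h2 : rows n ℓ ⟨0, hn⟩ = 0 := by rw [h0]; rfl
        rw [rows, card_eq_zero, filter_eq_empty_iff] at h2
        exact h2 (mem_univ c) (Nat.pos_of_ne_zero hc)
      refine ⟨Unit, inferInstance, fun _ _ _ => 0, ?_, ?_, ?_, ?_⟩
      · rw [gt, if_pos h0]; rfl
      · intro k c r hr; rw [h1 c] at hr; omega
      · intro k c r s _ hr; rw [h1 c] at hr; omega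
      · intro a b _; rfl
    · refine ⟨Empty, inferInstance, fun k => k.elim, ?_, ?_, ?_, ?_⟩
      · rw [gt, if_neg h0]; rfl
      · intro k; exact k.elim
      · intro k; exact k.elim
      · intro k; exact k.elim
  | succ N ih =>
    intro ℓ hℓ
    have h1 : ∀ μ : {μ // μ ∈ strips (rows n ℓ)}, ∃ ℓ' : C → ℕ, (∀ c, ℓ' c ≤ ℓ c) ∧
        (∀ c, ℓ c ≤ ℓ' c + 1) ∧ rows n ℓ' = μ := fun μ => exists_shape n ℓ hℓ μ μ.2
    choose ℓ' hle hge hrows using h1
    have h2 := fun μ => ih (ℓ' μ) (fun c => (hle μ c).trans (hℓ c))
    choose κ hκ T hcard hlt hmono hinj using h2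
    refine ⟨(μ : {μ // μ ∈ strips (rows n ℓ)}) × κ μ, inferInstance,
      fun p c r => if r < ℓ' p.1 c then T p.1 p.2 c r else N, ?_, ?_, ?_, ?_⟩
    · rw [Fintype.card_sigma, gt, ← Finset.sum_coe_sort (strips (rows n ℓ)) (fun μ => gt n N μ)]
      refine Finset.sum_congr rfl fun μ _ => ?_
      rw [hcard μ, hrows μ]
    · intro p c r hr
      dsimp only
      split_ifs with h3
      · exact (hlt p.1 p.2 c r h3).trans (Nat.lt_succ_self N)
      · exact Nat.lt_succ_self N
    · intro p c r s hrs hs
      dsimp only
      have h4 := hge p.1 c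
      rw [if_pos (by omega : r < ℓ' p.1 c)]
      split_ifs with h3
      · exact hmono p.1 p.2 c r s hrs h3
      · exact hlt p.1 p.2 c r (by omega)
    · rintro ⟨μ, k⟩ ⟨ν, k'⟩ h
      dsimp only at h
      have hlast : ∀ (μ : {μ // μ ∈ strips (rows n ℓ)}) (k : κ μ) (r : Fin n),
          ev ℓ (fun c r => if r < ℓ' μ c then T μ k c r else N) r N + μ.1 r = rows n ℓ r := by
        intro μ k r
        rw [← hrows μ, ev, rows, rows, ← card_union_of_disjoint]
        · congr 1
          ext c
          simp only [mem_union, mem_filter, mem_univ, true_and]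
          have h5 := hle μ c
          constructor
          · rintro (⟨h6, _⟩ | h6)
            · exact h6
            · omega
          · intro h6
            by_cases h7 : (r : ℕ) < ℓ' μ c
            · exact Or.inr h7
            · exact Or.inl ⟨h6, if_neg h7⟩
        · rw [disjoint_filter]
          rintro c _ ⟨_, h6⟩ h7
          rw [if_pos h7] at h6
          have := hlt μ k c r h7
          omega
      have hμν : μ = ν := by
        apply Subtype.ext
        funext r
        have h5 := hlast μ k r
        have h6 := hlast ν k' r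
        have h7 := congrFun (congrFun h (r : ℕ)) N
        omega
      subst hμν
      have hkk : k = k' := by
        refine hinj μ ?_
        funext r j
        dsimp only
        by_cases hj : j < N
        · have h8 : ∀ k : κ μ, ev ℓ (fun c r => if r < ℓ' μ c then T μ k c r else N) r j =
              ev (ℓ' μ) (T μ k) r j := by
            intro k
            rw [ev, ev]
            congr 1
            ext c
            simp only [mem_filter, mem_univ, true_and]
            have h5 := hle μ c
            constructor
            · rintro ⟨_, h6⟩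
              split_ifs at h6 with h7
              · exact ⟨h7, h6⟩
              · omega
            · rintro ⟨h6, h7⟩
              exact ⟨by omega, by rw [if_pos h6]; exact h7⟩
          rw [← h8 k, ← h8 k']
          exact congrFun (congrFun h r) j
        · have h8 : ∀ k : κ μ, ev (ℓ' μ) (T μ k) r j = 0 := by
            intro k
            rw [ev, card_eq_zero, filter_eq_empty_iff]
            rintro c _ ⟨h6, h7⟩
            have := hlt μ k c r h6
            omega
          rw [h8, h8]
      rw [hkk]

end Vale.Agent.P181.H463
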