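import Vale.Agent.P181.H463.Lead
import Vale.Agent.P181.H463.Ssyt

set_option autoImplicit false
set_option linter.unusedSectionVars false

/-!
Existence of many linearly independent products of minors with balanced column degrees.
-/

open MvPolynomial

namespace Vale.Agent.P181.H463

variable {K : Type*} [Field K] {C : Type*} [Fintype C] {n N : ℕ} {ℓ : C → ℕ}

/-- The leading exponent of the product of minors of a column strict filling. -/
noncomputable def ex (hℓ : ∀ c, ℓ c ≤ n) (T : (c : C) → Fin (ℓ c) → Fin N) :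
    Fin n × Fin N →₀ ℕ :=
  ∑ c, ∑ s, Finsupp.single (Fin.castLE (hℓ c) s, T c s) 1

theorem lead_prodM (hℓ : ∀ c, ℓ c ≤ n) (T : (c : C) → Fin (ℓ c) → Fin N)
    (hT : ∀ c, StrictMono (T c)) :
    Lead (fun v : Fin n × Fin N => (v.1 : ℕ) * (v.2 : ℕ)) (prodM K hℓ T) (ex hℓ T) :=
  Lead.prod _ _ _ fun c _ => lead_mnr (hℓ c) (T c) (hT c)

theorem ex_apply [DecidableEq C] (hℓ : ∀ c, ℓ c ≤ n) (T' : C → ℕ → ℕ)
    (hlt : ∀ c r, r < ℓ c → T' c r < N) (r : Fin n) (j : Fin N) :
    ex hℓ (fun c s => (⟨T' c s, hlt c s s.2⟩ : Fin N)) (r, j) = ev ℓ T' r j := by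
  classical
  rw [ex, ev, Finsupp.finset_sum_apply, Finset.card_filter]
  refine Finset.sum_congr rfl fun c _ => ?_
  rw [Finsupp.finset_sum_apply]
  by_cases h : (r : ℕ) < ℓ c
  · rw [Finset.sum_eq_single (⟨r, h⟩ : Fin (ℓ c))]
    · rw [Finsupp.single_apply]
      refine if_congr ?_ rfl rfl
      rw [Prod.mk.injEq]
      constructor
      · rintro ⟨_, h2⟩
        exact ⟨h, congrArg Fin.val h2⟩
      · rintro ⟨_, h2⟩
        exact ⟨Fin.ext rfl, Fin.ext h2⟩
    · intro s _ hs
      rw [Finsupp.single_apply, if_neg]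
      rw [Prod.mk.injEq]
      rintro ⟨h1, _⟩
      have h2 : (s : ℕ) = (r : ℕ) := congrArg Fin.val h1
      exact hs (Fin.ext h2)
    · intro h1
      exact absurd (Finset.mem_univ _) h1
  · rw [if_neg (fun h1 => h h1.1)]
    refine Finset.sum_eq_zero fun s _ => ?_
    rw [Finsupp.single_apply, if_neg]
    rw [Prod.mk.injEq]
    rintro ⟨h1, _⟩
    have := congrArg Fin.val h1
    rw [Fin.val_castLE] at this
    have := s.2
    omega

/-- A linearly independent family of products of minors indexed by a set with `gt` elements. -/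
theorem exists_li [DecidableEq C] (hℓ : ∀ c, ℓ c ≤ n) (N : ℕ) :
    ∃ (κ : Type) (_ : Fintype κ) (T : κ → (c : C) → Fin (ℓ c) → Fin N),
      Fintype.card κ = gt n N (rows n ℓ) ∧ LinearIndependent K (fun k => prodM K hℓ (T k)) := by
  obtain ⟨κ, hκ, T, hcard, hlt, hmono, hinj⟩ := exists_fam n N ℓ hℓ
  refine ⟨κ, hκ, fun k c s => (⟨T k c s, hlt k c s s.2⟩ : Fin N), hcard, ?_⟩
  refine Lead.linearIndependent (w := fun v : Fin n × Fin N => (v.1 : ℕ) * (v.2 : ℕ))
    (fun k => lead_prodM hℓ _ fun c s t hst => hmono k c s t hst t.2) ?_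
  intro k k' h
  apply hinj
  dsimp only at h ⊢
  funext r j
  by_cases hr : r < n
  · by_cases hj : j < N
    · have h1 := ex_apply hℓ (T k) (hlt k) ⟨r, hr⟩ ⟨j, hj⟩
      have h2 := ex_apply hℓ (T k') (hlt k') ⟨r, hr⟩ ⟨j, hj⟩
      rw [h] at h1
      exact h1.symm.trans h2
    · have h3 : ∀ k, ev ℓ (T k) r j = 0 := by
        intro k
        rw [ev, Finset.card_eq_zero, Finset.filter_eq_empty_iff]
        rintro c _ ⟨h6, h7⟩
        have := hlt k c r h6
        omega
      rw [h3, h3]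
  · have h3 : ∀ k, ev ℓ (T k) r j = 0 := by
      intro k
      rw [ev, Finset.card_eq_zero, Finset.filter_eq_empty_iff]
      rintro c _ ⟨h6, _⟩
      have := hℓ c
      omega
    rw [h3, h3]

theorem sum_cnt [DecidableEq C] {σ : Type*} [DecidableEq σ] [Fintype σ]
    (T : (c : C) → Fin (ℓ c) → σ) : ∑ k, cnt T k = ∑ c, ℓ c := by
  unfold cnt cw
  rw [Finset.sum_comm]
  refine Finset.sum_congr rfl fun c _ => ?_
  rw [Finset.sum_comm]
  simp

/-- Many linearly independent products of minors with balanced column degrees. -/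
theorem exists_products [CharZero K] [DecidableEq C] (hℓ : ∀ c, ℓ c ≤ n) (N : ℕ) (β : Fin N → ℕ)
    (hβ : ∀ i j, β i ≤ β j + 1) (hsum : ∑ j, β j = ∑ c, ℓ c) :
    ∃ (κ : Type) (_ : Fintype κ) (T : κ → (c : C) → Fin (ℓ c) → Fin N),
      (∀ k, cnt (T k) = β) ∧ LinearIndependent K (fun k => prodM K hℓ (T k)) ∧
      gt n N (rows n ℓ) ≤ (N + (∑ c, ℓ c) - 1).choose (∑ c, ℓ c) * Fintype.card κ := by
  classical
  obtain ⟨κ₀, hκ₀, T₀, hcard, hli⟩ := exists_li (K := K) hℓ N
  have hst := stable_spanM (K := K) (σ := Fin N) hℓ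
  have h1 := hst.card_le hβ (fun k => prodM K hℓ (T₀ k)) (fun k => cnt (T₀ k))
    (fun k => Submodule.subset_span ⟨T₀ k, rfl, rfl⟩)
    (fun k => by rw [sum_cnt, hsum]) hli
  obtain ⟨b, hbs, hspan, hbli⟩ := exists_linearIndependent K (prodSet K hℓ β)
  have hbfin : b.Finite := (prodSet_finite (K := K) hℓ β).subset hbs
  have := hbfin.fintype
  have hcardb : Fintype.card b = Module.finrank K (spanM K hℓ β) := by
    rw [spanM, ← hspan, finrank_span_set_eq_card hbli, Set.toFinset_card]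
  have h2 : ∀ x : b, ∃ T : (c : C) → Fin (ℓ c) → Fin N, cnt T = β ∧
      (x : MvPolynomial (Fin n × Fin N) K) = prodM K hℓ T := fun x => hbs x.2
  choose T hT hx using h2
  let e := (Fintype.equivFin b).symm
  refine ⟨Fin (Fintype.card b), inferInstance, fun k => T (e k), fun k => hT _, ?_, ?_⟩
  · have h3 : (fun k => prodM K hℓ (T (e k))) =
        (fun x : b => (x : MvPolynomial (Fin n × Fin N) K)) ∘ e := by
      funext k
      exact (hx _).symm
    rw [h3]
    exact hbli.comp e e.injective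
  · rw [Fintype.card_fin, hcardb, ← hcard, ← hsum]
    refine h1.trans (le_of_eq ?_)
    rw [card_piAntidiag_univ, Fintype.card_fin]

theorem eval_mnr {m i : ℕ} (him : i ≤ m) (e : Fin i → Fin N) (p : Fin N → Fin m → ℂ) :
    eval (fun v : Fin m × Fin N => p v.2 v.1) (mnr ℂ him e) =
      Matrix.det (Matrix.of fun j k : Fin i => p (e j) (Fin.castLE him k)) := by
  rw [mnr, RingHom.map_det, ← Matrix.det_transpose]
  congr 1
  ext j k
  simp

/-- Function version of `exists_products`. -/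
theorem exists_products_fun [DecidableEq C] (hℓ : ∀ c, ℓ c ≤ n) (N : ℕ) (β : Fin N → ℕ)
    (hβ : ∀ i j, β i ≤ β j + 1) (hsum : ∑ j, β j = ∑ c, ℓ c) :
    ∃ (κ : Type) (_ : Fintype κ) (T : κ → (c : C) → Fin (ℓ c) → Fin N),
      (∀ k, cnt (T k) = β) ∧
      LinearIndependent ℂ (fun k (p : Fin N → Fin n → ℂ) =>
        ∏ c, Matrix.det (Matrix.of fun j k' : Fin (ℓ c) => p (T k c j) (Fin.castLE (hℓ c) k'))) ∧
      gt n N (rows n ℓ) ≤ (N + (∑ c, ℓ c) - 1).choose (∑ c, ℓ c) * Fintype.card κ := by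
  obtain ⟨κ, hκ, T, h1, h2, h3⟩ := exists_products (K := ℂ) hℓ N β hβ hsum
  refine ⟨κ, hκ, T, h1, ?_, h3⟩
  let φ : MvPolynomial (Fin n × Fin N) ℂ →ₗ[ℂ] ((Fin N → Fin n → ℂ) → ℂ) :=
    { toFun := fun f p => eval (fun v : Fin n × Fin N => p v.2 v.1) f
      map_add' := fun f g => by funext p; exact map_add _ f g
      map_smul' := fun c f => by
        funext p
        rw [smul_eq_C_mul, map_mul, eval_C]; rfl }
  have hφ : LinearMap.ker φ = ⊥ := by
    rw [LinearMap.ker_eq_bot']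
    intro f hf
    refine MvPolynomial.funext fun x => ?_
    have := congrFun hf (fun j i => x (i, j))
    exact this
  have h4 := (LinearMap.linearIndependent_iff φ hφ).mpr h2
  have h5 : (fun k (p : Fin N → Fin n → ℂ) =>
        ∏ c, Matrix.det (Matrix.of fun j k' : Fin (ℓ c) => p (T k c j) (Fin.castLE (hℓ c) k'))) =
      φ ∘ (fun k => prodM ℂ hℓ (T k)) := by
    funext k p
    show _ = eval (fun v : Fin n × Fin N => p v.2 v.1) (prodM ℂ hℓ (T k))
    rw [prodM, map_prod]
    exact Finset.prod_congr rfl fun c _ => (eval_mnr (hℓ c) (T k c) p).symm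
  rw [h5]
  exact h4

end Vale.Agent.P181.H463
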