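import Vale.Agent.P181.H463.Rigid

set_option autoImplicit false

namespace Vale.Agent.P181.T6

/-- [LB] Rigid from the special letters and the tests. -/
theorem rigid_of {m R N : ℕ} {T C : Type} [Fintype T] [Fintype C]
    (D : Design m R N T (Fin R × Fin 3) C) (K : ℕ) (rho : Fin R → Fin 3 → ℕ)
    (hmark : ∀ (r : Fin R) (j : Fin 3), rho r j ≤ D.mark (Sum.inl (r, j)) r)
    (hcapS : ∀ (r : Fin R) (j : Fin 3) (i : Fin R),
      D.cap (Sum.inl (r, j)) i ≤ if i = r then rho r j else 0)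
    (hcapN : ∀ (q : Fin N) (i : Fin R), D.cap (Sum.inr q) i ≤ K)
    (h0 : ∀ r : Fin R, rho r 0 = K + 1 + r) (h01 : ∀ r, K + R < rho r 1)
    (h12 : ∀ r, rho r 1 < rho r 2)
    (hsep : ∀ q p : Fin N, q ≠ p → ∃ r : Fin R,
      0 < D.mark (Sum.inr q) r ∧ D.cap (Sum.inr p) r = 0) : D.Rigid := by
  refine H463.rigid_of D (Equiv.refl _) rho K hcapN (fun s => hmark s.1 s.2)
    (fun s r => hcapS s.1 s.2 r) ?_ ?_ h12 ?_ (fun p q hpq => hsep q p hpq.symm)
  · intro r j
    have h1 := h0 r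
    have h2 := h01 r
    have h3 := h12 r
    have h : j = 0 ∨ j = 1 ∨ j = 2 := by
      revert j
      decide
    rcases h with rfl | rfl | rfl <;> omega
  · intro r r'
    have h1 := h0 r
    have h2 := h01 r'
    have h3 := r.2
    omega
  · intro r r' hr
    show rho r 0 < rho r' 0
    rw [h0 r, h0 r']
    have : (r : ℕ) < (r' : ℕ) := hr
    omega

end Vale.Agent.P181.T6
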