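import Vale.Agent.P181.H463.Prod

set_option autoImplicit false
set_option linter.unusedSectionVars false

/-!
Leading monomials for a weight; linear independence of products of minors.
-/

open MvPolynomial

namespace Vale.Agent.P181.H463

variable {K : Type*} [Field K] {τ : Type*} {w : τ → ℕ}

/-- `f` is the monomial `e` plus terms of smaller weight. -/
def Lead (w : τ → ℕ) (f : MvPolynomial τ K) (e : τ →₀ ℕ) : Prop :=
  coeff e f = 1 ∧ ∀ m, coeff m f ≠ 0 → m ≠ e → Finsupp.weight w m < Finsupp.weight w e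

theorem Lead.one : Lead w (1 : MvPolynomial τ K) 0 := by
  classical
  refine ⟨coeff_zero_one, fun m hm hne => ?_⟩
  rw [coeff_one, if_neg (Ne.symm hne)] at hm
  exact absurd rfl hm

theorem Lead.mul {f g : MvPolynomial τ K} {e e' : τ →₀ ℕ} (hf : Lead w f e) (hg : Lead w g e') :
    Lead w (f * g) (e + e') := by
  classical
  have hle : ∀ m, coeff m f ≠ 0 → Finsupp.weight w m ≤ Finsupp.weight w e := by
    intro m hm
    by_cases h : m = e
    · rw [h]
    · exact (hf.2 m hm h).le
  have hle' : ∀ m, coeff m g ≠ 0 → Finsupp.weight w m ≤ Finsupp.weight w e' := by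
    intro m hm
    by_cases h : m = e'
    · rw [h]
    · exact (hg.2 m hm h).le
  constructor
  · rw [coeff_mul, Finset.sum_eq_single (e, e')]
    · rw [hf.1, hg.1, mul_one]
    · rintro ⟨a, b⟩ hab hne
      by_contra h
      have hab' : a + b = e + e' := Finset.HasAntidiagonal.mem_antidiagonal.mp hab
      have ha := left_ne_zero_of_mul h
      have hb := right_ne_zero_of_mul h
      dsimp only at ha hb
      have hw := congrArg (Finsupp.weight w) hab'
      rw [map_add, map_add] at hw
      by_cases hae : a = e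
      · subst hae
        have : b = e' := add_left_cancel hab'
        subst this
        exact hne rfl
      · have h1 := hf.2 a ha hae
        have h2 := hle' b hb
        omega
    · intro h
      refine absurd ?_ h
      rw [Finset.HasAntidiagonal.mem_antidiagonal]
  · intro m hm hne
    rw [coeff_mul] at hm
    obtain ⟨⟨a, b⟩, hab, h⟩ := Finset.exists_ne_zero_of_sum_ne_zero hm
    have hab' : a + b = m := Finset.HasAntidiagonal.mem_antidiagonal.mp hab
    have ha := left_ne_zero_of_mul h
    have hb := right_ne_zero_of_mul h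
    dsimp only at ha hb
    rw [← hab', map_add, map_add]
    have h1 := hle a ha
    have h2 := hle' b hb
    by_cases hae : a = e
    · have hbe : b ≠ e' := by
        rintro rfl
        exact hne (by rw [← hab', hae])
      have := hg.2 b hb hbe
      omega
    · have := hf.2 a ha hae
      omega

theorem Lead.prod {ι : Type*} (s : Finset ι) (f : ι → MvPolynomial τ K) (e : ι → τ →₀ ℕ)
    (h : ∀ i ∈ s, Lead w (f i) (e i)) : Lead w (∏ i ∈ s, f i) (∑ i ∈ s, e i) := by
  classical
  induction s using Finset.induction_on with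
  | empty => simpa using Lead.one
  | insert a s ha ih =>
    rw [Finset.prod_insert ha, Finset.sum_insert ha]
    exact (h a (Finset.mem_insert_self a s)).mul
      (ih fun i hi => h i (Finset.mem_insert_of_mem hi))

theorem Lead.linearIndependent {ι : Type*} {f : ι → MvPolynomial τ K} {e : ι → τ →₀ ℕ}
    (h : ∀ i, Lead w (f i) (e i)) (he : Function.Injective e) : LinearIndependent K f := by
  classical
  rw [linearIndependent_iff']
  intro s g hg
  by_contra hno
  push Not at hno
  obtain ⟨i, hi, hgi⟩ := hno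
  obtain ⟨k, hk, hmax⟩ := Finset.exists_max_image (s.filter fun i => g i ≠ 0)
    (fun i => Finsupp.weight w (e i)) ⟨i, Finset.mem_filter.mpr ⟨hi, hgi⟩⟩
  have hk' := Finset.mem_filter.mp hk
  have h1 := congrArg (coeff (e k)) hg
  rw [coeff_sum, coeff_zero, Finset.sum_eq_single k] at h1
  · rw [coeff_smul, (h k).1, smul_eq_mul, mul_one] at h1
    exact hk'.2 h1
  · intro j hj hjk
    rw [coeff_smul, smul_eq_mul]
    by_contra hne
    have hgj := left_ne_zero_of_mul hne
    have hcj := right_ne_zero_of_mul hne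
    have h2 := (h j).2 (e k) hcj (fun h3 => hjk (he h3.symm))
    have h3 := hmax j (Finset.mem_filter.mpr ⟨hj, hgj⟩)
    omega
  · intro h2
    exact absurd hk'.1 h2

theorem perm_weight {ℓ : ℕ} (u : Fin ℓ → ℕ) (hu : StrictMono u) (π : Equiv.Perm (Fin ℓ))
    (hπ : π ≠ 1) : ∑ s : Fin ℓ, (π s : ℕ) * u s < ∑ s : Fin ℓ, (s : ℕ) * u s := by
  have hmv : Monovary (fun s : Fin ℓ => (s : ℕ)) u := by
    intro i j hij
    exact (hu.lt_iff_lt.mp hij).le
  have h := (hmv.sum_comp_perm_mul_lt_sum_mul_iff (σ := π)).mpr ?_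
  · exact h
  · intro h2
    apply hπ
    have hmono : Monotone (π : Fin ℓ → Fin ℓ) := by
      intro i j hij
      rcases hij.lt_or_eq with hlt | rfl
      · exact h2 (hu hlt)
      · exact le_rfl
    have hst : StrictMono (π : Fin ℓ → Fin ℓ) := hmono.strictMono_of_injective π.injective
    ext i
    have hid : (π : Fin ℓ → Fin ℓ) = id := by
      have : StrictMono.orderIsoOfSurjective (π : Fin ℓ → Fin ℓ) hst π.surjective =
        OrderIso.refl _ := Subsingleton.elim _ _
      funext x
      exact congrArg (fun f : Fin ℓ ≃o Fin ℓ => f x) this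
    rw [hid]; rfl

theorem lead_mnr {n ℓ N : ℕ} (h : ℓ ≤ n) (u : Fin ℓ → Fin N) (hu : StrictMono u) :
    Lead (fun v : Fin n × Fin N => (v.1 : ℕ) * (v.2 : ℕ)) (mnr K h u)
      (∑ s, Finsupp.single (Fin.castLE h s, u s) 1) := by
  classical
  have hw : ∀ π : Equiv.Perm (Fin ℓ),
      Finsupp.weight (fun v : Fin n × Fin N => (v.1 : ℕ) * (v.2 : ℕ))
        (∑ s, Finsupp.single (Fin.castLE h (π s), u s) 1) = ∑ s, (π s : ℕ) * (u s : ℕ) := by
    intro π
    rw [map_sum]
    refine Finset.sum_congr rfl fun s _ => ?_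
    rw [Finsupp.weight_apply, Finsupp.sum_single_index (by simp)]
    simp
  have hw1 : Finsupp.weight (fun v : Fin n × Fin N => (v.1 : ℕ) * (v.2 : ℕ))
        (∑ s, Finsupp.single (Fin.castLE h s, u s) 1) = ∑ s : Fin ℓ, (s : ℕ) * (u s : ℕ) := hw 1
  have hlt : ∀ π : Equiv.Perm (Fin ℓ), π ≠ 1 →
      Finsupp.weight (fun v : Fin n × Fin N => (v.1 : ℕ) * (v.2 : ℕ))
        (∑ s, Finsupp.single (Fin.castLE h (π s), u s) 1) <
      Finsupp.weight (fun v : Fin n × Fin N => (v.1 : ℕ) * (v.2 : ℕ))
        (∑ s, Finsupp.single (Fin.castLE h s, u s) 1) := by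
    intro π hπ
    rw [hw, hw1]
    exact perm_weight (fun s => (u s : ℕ)) (fun a b hab => hu hab) π hπ
  have hdet : mnr K h u = ∑ π : Equiv.Perm (Fin ℓ), ((Equiv.Perm.sign π : ℤˣ) : ℤ) •
      monomial (∑ s, Finsupp.single (Fin.castLE h (π s), u s) 1) (1 : K) := by
    rw [mnr, Matrix.det_apply]
    refine Finset.sum_congr rfl fun π _ => ?_
    rw [monomial_sum_one]
    rfl
  have hc : ∀ m, coeff m (mnr K h u) = ∑ π : Equiv.Perm (Fin ℓ),
      ((Equiv.Perm.sign π : ℤˣ) : ℤ) •
        (if (∑ s, Finsupp.single (Fin.castLE h (π s), u s) 1) = m then (1 : K) else 0) := by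
    intro m
    rw [hdet, coeff_sum]
    refine Finset.sum_congr rfl fun π _ => ?_
    rw [coeff_smul, coeff_monomial]
  constructor
  · rw [hc, Finset.sum_eq_single 1]
    · rw [Equiv.Perm.sign_one, if_pos]
      · simp
      · rfl
    · intro π _ hπ
      rw [if_neg, smul_zero]
      intro h1
      have h2 := hlt π hπ
      rw [h1] at h2
      exact lt_irrefl _ h2
    · intro h1
      exact absurd (Finset.mem_univ _) h1
  · intro m hm hne
    rw [hc] at hm
    obtain ⟨π, _, h1⟩ := Finset.exists_ne_zero_of_sum_ne_zero hm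
    by_cases h2 : (∑ s, Finsupp.single (Fin.castLE h (π s), u s) 1) = m
    · rw [← h2]
      refine hlt π ?_
      rintro rfl
      exact hne h2.symm
    · rw [if_neg h2, smul_zero] at h1
      exact absurd rfl h1

end Vale.Agent.P181.H463
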