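import Vale.Agent.P181.H463.LowGlue
import Vale.Agent.P181.H498.Glue
import Vale.Agent.P181.T4.Asm

set_option autoImplicit false

/-!
The lower bound for the multiplicity from the existence of a frame.
-/

namespace Vale.Agent.P181.H463

open Vale.Agent.P181.H188W Vale.Agent.P181.T4 Vale.Agent.P181.H280

theorem low_final {a b R L : ℕ} {lam : Fin a → ℕ} (hlam : Antitone lam) (hR : R ≤ a)
    (hsum : ∑ i, lam i = a * b) (h : FrameFor a b R L lam) :
    ∃ N : ℕ, N ≤ b ∧ b ≤ N + R * (L / a + 3) ∧
      gt (a - R) N (low R lam) ≤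
        ((∑ i, low R lam i) + N - 1).choose (N - 1) * plethMult b a a lam := by
  obtain ⟨N, hN, hbN, d, hd, hds, H⟩ := Vale.Agent.P181.H498.low_le hR hsum h
  have hlow : (fun i : Fin (a - R) => lam ⟨R + i, by have := i.isLt; omega⟩) = low R lam := by
    funext i
    have := i.isLt
    rw [low, ex_of_lt lam (by omega)]
  have hlow' : ∀ i : Fin (a - R), lam ⟨R + i, by have := i.isLt; omega⟩ = low R lam i :=
    fun i => congrFun hlow i
  refine ⟨N, hN, hbN, ?_⟩
  refine gt_le_of_family (low R lam) (low_anti hlam R) d hd ?_ ?_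
  · rw [hds]
    exact Finset.sum_congr rfl fun i _ => hlow' i
  · intro C ι _ _ len hlen hcol J hJ hli
    refine H len hlen (fun i => (hcol i).trans (hlow' i).symm) J hJ ?_
    have e : (fun (β : ι) (z : Fin N → Fin (a - R) → ℂ) => (∏ c, dt (hlen c) (J β c)) z) =
        (fun β : ι => ∏ c, dt (B := N) (m := a - R) (hlen c) (J β c)) := rfl
    rw [e] at hli
    exact hli

end Vale.Agent.P181.H463
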