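import Mathlib

set_option autoImplicit false

/-!
Numerical side conditions.
-/

namespace Vale.Agent.P181.H463

open Filter

theorem ev_log {δ A0 : ℝ} (hδ : 0 < δ) (hA0 : 0 < A0) :
    ∀ᶠ a : ℕ in atTop, A0 * Real.log a + 3 ≤ (a : ℝ) ^ δ := by
  have h1 := (isLittleO_log_rpow_atTop hδ).bound (c := 1 / (2 * A0)) (by positivity)
  have h2 := (tendsto_rpow_atTop hδ).eventually_ge_atTop 6
  have h3 := (tendsto_natCast_atTop_atTop (R := ℝ)).eventually h1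
  have h4 := (tendsto_natCast_atTop_atTop (R := ℝ)).eventually h2
  filter_upwards [h3, h4] with a h5 h6
  rw [Real.norm_eq_abs, Real.norm_eq_abs, abs_of_nonneg (a := (a : ℝ) ^ δ) (by positivity)] at h5
  have h7 : Real.log a ≤ 1 / (2 * A0) * (a : ℝ) ^ δ := (le_abs_self _).trans h5
  have h8 : A0 * Real.log a ≤ (a : ℝ) ^ δ / 2 := by
    calc A0 * Real.log a ≤ A0 * (1 / (2 * A0) * (a : ℝ) ^ δ) :=
          mul_le_mul_of_nonneg_left h7 hA0.le
      _ = (a : ℝ) ^ δ / 2 := by field_simp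
  linarith

theorem side {δ A0 : ℝ} (hδ : 0 < δ) (hδ1 : δ ≤ 1 / 3) (hA0 : 0 < A0) :
    ∀ᶠ a : ℕ in atTop, ∀ b L : ℕ, (a : ℝ) + (a : ℝ) ^ (3 * δ) ≤ b →
      (L : ℝ) ≤ A0 * b * Real.log a → a + ⌊(a : ℝ) ^ δ⌋₊ * (L / a + 3) ≤ b := by
  filter_upwards [ev_log hδ hA0, eventually_ge_atTop 8] with a h1 h2 b L h3 h4
  have ha8 : (8 : ℝ) ≤ a := by exact_mod_cast h2
  have ha0 : (0 : ℝ) < a := by linarith
  have hlog : 0 ≤ Real.log a := Real.log_nonneg (by linarith)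
  have hy0 : 0 < (a : ℝ) ^ δ := by positivity
  have hR : ((⌊(a : ℝ) ^ δ⌋₊ : ℕ) : ℝ) ≤ (a : ℝ) ^ δ := Nat.floor_le hy0.le
  have hy3 : 3 ≤ (a : ℝ) ^ δ := by
    have : 0 ≤ A0 * Real.log a := mul_nonneg hA0.le hlog
    linarith
  have h3y : (a : ℝ) ^ (3 * δ) = (a : ℝ) ^ δ * (a : ℝ) ^ δ * (a : ℝ) ^ δ := by
    rw [← Real.rpow_add ha0, ← Real.rpow_add ha0]
    congr 1
    ring
  have hy3a : (a : ℝ) ^ δ * (a : ℝ) ^ δ * (a : ℝ) ^ δ ≤ a := by
    rw [← h3y]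
    conv_rhs => rw [← Real.rpow_one (a : ℝ)]
    exact Real.rpow_le_rpow_of_exponent_le (by linarith) (by linarith)
  set y : ℝ := (a : ℝ) ^ δ with hy
  have hb : (a : ℝ) ≤ b := by
    have : 0 ≤ (a : ℝ) ^ (3 * δ) := by positivity
    linarith
  have hdiv : ((L / a : ℕ) : ℝ) ≤ A0 * b * Real.log a / a := by
    refine (Nat.cast_div_le (α := ℝ)).trans ?_
    exact div_le_div_of_nonneg_right h4 ha0.le
  set x : ℝ := (b : ℝ) / a with hx
  have hx1 : 1 ≤ x := by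
    rw [hx, le_div_iff₀ ha0]
    linarith
  have hbx : (b : ℝ) = x * a := by
    rw [hx]
    field_simp
  have hmain : ((⌊(a : ℝ) ^ δ⌋₊ * (L / a + 3) : ℕ) : ℝ) ≤ y * (x * y) := by
    push_cast
    have h5 : ((L / a : ℕ) : ℝ) + 3 ≤ x * y := by
      have h6 : A0 * b * Real.log a / a = x * (A0 * Real.log a) := by
        rw [hx]
        field_simp
      rw [h6] at hdiv
      calc ((L / a : ℕ) : ℝ) + 3 ≤ x * (A0 * Real.log a) + x * 3 := by nlinarith
        _ = x * (A0 * Real.log a + 3) := by ring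
        _ ≤ x * y := mul_le_mul_of_nonneg_left h1 (by linarith)
    have h7 : (0 : ℝ) ≤ ((L / a : ℕ) : ℝ) + 3 := by positivity
    calc ((⌊y⌋₊ : ℕ) : ℝ) * (((L / a : ℕ) : ℝ) + 3) ≤ y * (((L / a : ℕ) : ℝ) + 3) :=
          mul_le_mul_of_nonneg_right hR h7
      _ ≤ y * (x * y) := mul_le_mul_of_nonneg_left h5 hy0.le
  have hgoal : ((a + ⌊(a : ℝ) ^ δ⌋₊ * (L / a + 3) : ℕ) : ℝ) ≤ b := by
    rw [Nat.cast_add]
    by_cases hx2 : x ≤ 2
    · have h8 : y * (x * y) ≤ y * y * y := by nlinarith [mul_pos hy0 hy0]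
      rw [h3y] at h3
      linarith
    · push Not at hx2
      have h9 : y * (x * y) ≤ x * a / 2 := by
        have h10 : y * y * 3 ≤ a := by nlinarith [mul_pos hy0 hy0]
        nlinarith
      rw [hbx]
      nlinarith
  exact_mod_cast hgoal

theorem exists_mon {δ : ℝ} (hδ : 0 < δ) : ∃ k : ℕ, ∀ᶠ a : ℕ in atTop,
    a ^ 2 ≤ (⌊(a : ℝ) ^ (δ / 2)⌋₊ + k - 1).choose k := by
  obtain ⟨k, hk⟩ := exists_nat_ge (6 / δ)
  refine ⟨k, ?_⟩
  have h2 := (tendsto_rpow_atTop (half_pos hδ)).eventually_ge_atTop 2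
  have h3 := (tendsto_natCast_atTop_atTop (R := ℝ)).eventually h2
  filter_upwards [h3, eventually_ge_atTop (2 ^ k * k.factorial), eventually_ge_atTop 1] with a h4 h5
    h6
  set n := ⌊(a : ℝ) ^ (δ / 2)⌋₊ with hn
  have ha1 : (1 : ℝ) ≤ a := by exact_mod_cast h6
  have h7 : (a : ℝ) ^ (δ / 2) ≤ 2 * n := by
    have h8 := Nat.lt_floor_add_one ((a : ℝ) ^ (δ / 2))
    rw [← hn] at h8
    have h9 : (1 : ℝ) ≤ n := by
      have : 1 ≤ n := by
        rw [hn]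
        exact Nat.le_floor (by push_cast; linarith)
      exact_mod_cast this
    linarith
  have h10 : (a : ℝ) ^ 3 ≤ (2 * n : ℝ) ^ k := by
    calc (a : ℝ) ^ 3 = (a : ℝ) ^ (3 : ℝ) := by
          rw [← Real.rpow_natCast]; norm_num
      _ ≤ (a : ℝ) ^ (δ / 2 * k) := by
          refine Real.rpow_le_rpow_of_exponent_le ha1 ?_
          rw [div_le_iff₀ hδ] at hk
          linarith
      _ = ((a : ℝ) ^ (δ / 2)) ^ k := by
          rw [Real.rpow_mul (by linarith), Real.rpow_natCast]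
      _ ≤ (2 * n : ℝ) ^ k := pow_le_pow_left₀ (by positivity) h7 k
  have h11 : a ^ 3 ≤ (2 * n) ^ k := by exact_mod_cast h10
  have h12 : n ^ k ≤ k.factorial * (n + k - 1).choose k := by
    rw [← Nat.ascFactorial_eq_factorial_mul_choose']
    exact Nat.pow_succ_le_ascFactorial n k
  have h13 : a ^ 3 ≤ 2 ^ k * k.factorial * (n + k - 1).choose k := by
    calc a ^ 3 ≤ (2 * n) ^ k := h11
      _ = 2 ^ k * n ^ k := mul_pow 2 n k
      _ ≤ 2 ^ k * (k.factorial * (n + k - 1).choose k) := Nat.mul_le_mul_left _ h12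
      _ = _ := by ring
  have h14 : a ^ 3 ≤ a * (n + k - 1).choose k :=
    h13.trans (Nat.mul_le_mul_right _ h5)
  have h15 : a * a ^ 2 ≤ a * (n + k - 1).choose k := by
    calc a * a ^ 2 = a ^ 3 := by ring
      _ ≤ _ := h14
  exact Nat.le_of_mul_le_mul_left h15 (by omega)

end Vale.Agent.P181.H463
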