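import Vale.Agent.P181.H463.LowFinal
import Vale.Agent.P181.H463.Side

set_option autoImplicit false

/-!
The lower bound statement from the existence of frames.
-/

namespace Vale.Agent.P181.H463

open Filter Vale.Agent.P181.T4 Vale.Agent.P181.H280

/-- Existence of frames (162's `frameFor_of_typ`). -/
def FrameStmt : Prop := ∀ (a b R R1 k K L : ℕ) (lam : Fin a → ℕ), Antitone lam →
  ∑ i, lam i = a * b → Typ a b R R1 K L lam → 2 * k + 10 ≤ a → 2 * k + 11 ≤ K →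
  a + R * (L / a + 3) ≤ b → b ≤ (R1 + k - 1).choose k → FrameFor a b R L lam

/-- 404's `LowStmt` with the hypothesis `a + a ^ (3 δ) ≤ b`. -/
def LowStmt' : Prop :=
  ∀ δ : ℝ, 0 < δ → δ ≤ 1 / 3 → ∃ K : ℕ, ∀ A0 : ℝ, 0 < A0 → ∀ᶠ a : ℕ in Filter.atTop,
    ∀ b L : ℕ, (a : ℝ) + (a : ℝ) ^ (3 * δ) ≤ b → b ≤ a ^ 2 → (L : ℝ) ≤ A0 * b * Real.log a →
    ∀ lam : Fin a → ℕ, Antitone lam → ∑ i, lam i = a * b →
    Typ a b ⌊(a : ℝ) ^ δ⌋₊ ⌊(a : ℝ) ^ (δ / 2)⌋₊ K L lam →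
    ∃ N : ℕ, N ≤ b ∧ b ≤ N + ⌊(a : ℝ) ^ δ⌋₊ * (L / a + 3) ∧
      gt (a - ⌊(a : ℝ) ^ δ⌋₊) N (low ⌊(a : ℝ) ^ δ⌋₊ lam) ≤
        ((∑ i, low ⌊(a : ℝ) ^ δ⌋₊ lam i) + N - 1).choose (N - 1) * plethMult b a a lam

theorem lowStmt' (hF : FrameStmt) : LowStmt' := by
  intro δ hδ hδ1
  obtain ⟨k, hk⟩ := exists_mon hδ
  refine ⟨2 * k + 11, fun A0 hA0 => ?_⟩
  filter_upwards [hk, side hδ hδ1 hA0, eventually_ge_atTop (2 * k + 10),
    eventually_ge_atTop 1] with a h1 h2 h3 h4 b L hb hb2 hL lam hlam hsum hT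
  have hRa : ⌊(a : ℝ) ^ δ⌋₊ ≤ a := by
    have ha1 : (1 : ℝ) ≤ a := by exact_mod_cast h4
    have h5 : (a : ℝ) ^ δ ≤ a := by
      conv_rhs => rw [← Real.rpow_one (a : ℝ)]
      exact Real.rpow_le_rpow_of_exponent_le ha1 (by linarith)
    exact Nat.floor_le_of_le h5
  exact low_final hlam hRa hsum (hF a b _ _ k _ L lam hlam hsum hT h3 le_rfl (h2 b L hb hL)
    (hb2.trans h1))

/-- 404's `LowStmt`. -/
theorem low_stmt_of (hF : FrameStmt) : LowStmt := lowStmt' hF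

end Vale.Agent.P181.H463
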