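import Vale.Agent.P181.H463.Sl2

set_option autoImplicit false

/-!
Polarization operators `D_ij = ∑ r, x_{r,i} ∂/∂x_{r,j}` on polynomials in the entries of a matrix
with rows `ρ` and columns `σ`; `D_ij` is injective on polynomials whose degree in column `i` is
smaller than the degree in column `j`.
-/

open MvPolynomial

namespace Vale.Agent.P181.H463

set_option linter.unusedSectionVars false

variable {K : Type*} [Field K] {ρ σ : Type*} [Fintype ρ] [DecidableEq ρ] [DecidableEq σ]

/-- The polarization operator `∑ r, x_{r,i} ∂/∂x_{r,j}`. -/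
noncomputable def pol (K : Type*) [Field K] {ρ σ : Type*} [DecidableEq σ] (i j : σ) :
    Derivation K (MvPolynomial (ρ × σ) K) (MvPolynomial (ρ × σ) K) :=
  mkDerivation K (fun v => if v.2 = j then X (v.1, i) else 0)

theorem pol_X (i j : σ) (v : ρ × σ) :
    pol K i j (X v : MvPolynomial (ρ × σ) K) = if v.2 = j then X (v.1, i) else 0 := by
  rw [pol, mkDerivation_X]

theorem pol_comm {i j : σ} (hij : i ≠ j) (f : MvPolynomial (ρ × σ) K) :
    pol K i j (pol K j i f) - pol K j i (pol K i j f) = pol K i i f - pol K j j f := by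
  have h : ⁅(pol K i j : Derivation K (MvPolynomial (ρ × σ) K) (MvPolynomial (ρ × σ) K)),
      (pol K j i : Derivation K (MvPolynomial (ρ × σ) K) (MvPolynomial (ρ × σ) K))⁆ =
      (pol K i i - pol K j j : Derivation K (MvPolynomial (ρ × σ) K) (MvPolynomial (ρ × σ) K)) := by
    apply derivation_ext
    intro v
    rw [Derivation.commutator_apply, Derivation.sub_apply, pol_X, pol_X, pol_X, pol_X]
    by_cases h1 : v.2 = i
    · have h2 : v.2 ≠ j := fun h => hij (h1.symm.trans h)
      rw [if_pos h1, if_neg h2, if_pos h1, if_neg h2, map_zero, sub_zero, sub_zero, pol_X,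
        if_pos rfl]
    · by_cases h2 : v.2 = j
      · rw [if_neg h1, if_pos h2, if_neg h1, if_pos h2, map_zero, zero_sub, zero_sub, pol_X,
          if_pos rfl]
      · rw [if_neg h1, if_neg h2, if_neg h1, if_neg h2, map_zero, map_zero, sub_zero]
  have := congrArg (fun D => D f) h
  simpa [Derivation.commutator_apply] using this

/-- The polynomials whose monomials have degree `d j` in every column `j` (integer version). -/
def MZ (K : Type*) [Field K] (ρ : Type*) [Fintype ρ] {σ : Type*} (d : σ → ℤ) :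
    Submodule K (MvPolynomial (ρ × σ) K) where
  carrier := {f | ∀ m, f.coeff m ≠ 0 → ∀ j, ((∑ r, m (r, j) : ℕ) : ℤ) = d j}
  add_mem' := by
    intro f g hf hg m hm j
    rw [coeff_add] at hm
    by_cases h : f.coeff m = 0
    · exact hg m (by rwa [h, zero_add] at hm) j
    · exact hf m h j
  zero_mem' := by
    intro m hm
    exact absurd (coeff_zero m) hm
  smul_mem' := by
    intro c f hf m hm j
    rw [coeff_smul] at hm
    exact hf m (fun h => hm (by rw [h, smul_zero])) j

theorem MZ_eq_zero {d : σ → ℤ} {f : MvPolynomial (ρ × σ) K} (hf : f ∈ MZ K ρ d) {j : σ}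
    (hj : d j < 0) : f = 0 := by
  ext m
  rw [coeff_zero]
  by_contra h
  have := hf m h j
  omega

theorem monomial_mem_MZ {d : σ → ℤ} {m : ρ × σ →₀ ℕ} (c : K)
    (h : ∀ j, ((∑ r, m (r, j) : ℕ) : ℤ) = d j) : monomial m c ∈ MZ K ρ d := by
  intro m' hm' j
  rw [coeff_monomial] at hm'
  by_cases he : m = m'
  · rw [← he]; exact h j
  · rw [if_neg he] at hm'
    exact absurd rfl hm'

theorem pol_monomial [Fintype σ] (i j : σ) (m : ρ × σ →₀ ℕ) (c : K) :
    pol K i j (monomial m c) =
      ∑ r : ρ, (m (r, j) : K) •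
        monomial (m - Finsupp.single (r, j) 1 + Finsupp.single (r, i) 1) c := by
  rw [pol, mkDerivation_monomial, Finsupp.sum_fintype, Fintype.sum_prod_type]
  · rw [Finset.smul_sum]
    refine Finset.sum_congr rfl fun r _ => ?_
    rw [Finset.sum_eq_single j]
    · rw [if_pos rfl, smul_eq_mul, X, monomial_mul, mul_one, smul_monomial, smul_monomial,
        smul_eq_mul, smul_eq_mul, mul_comm]
    · intro b _ hb
      rw [if_neg hb, smul_zero]
    · intro h
      exact absurd (Finset.mem_univ j) h
  · intro v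
    simp

theorem sum_shift [Fintype σ] (i j : σ) (m : ρ × σ →₀ ℕ) (r : ρ) (hr : m (r, j) ≠ 0) (k : σ) :
    ((∑ s, (m - Finsupp.single (r, j) 1 + Finsupp.single (r, i) 1 : ρ × σ →₀ ℕ) (s, k) : ℕ) : ℤ) =
      ((∑ s, m (s, k) : ℕ) : ℤ) - (if k = j then 1 else 0) + (if k = i then 1 else 0) := by
  have key : ∀ s, (((m - Finsupp.single (r, j) 1 + Finsupp.single (r, i) 1 :
      ρ × σ →₀ ℕ) (s, k) : ℕ) : ℤ) =
      (m (s, k) : ℤ) - (if s = r then (if k = j then 1 else 0) else 0) +
        (if s = r then (if k = i then 1 else 0) else 0) := by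
    intro s
    rw [Finsupp.add_apply, Finsupp.tsub_apply, Finsupp.single_apply, Finsupp.single_apply]
    by_cases hs : s = r
    · subst hs
      by_cases hk : k = j
      · subst hk
        by_cases hi : k = i
        · subst hi
          simp; omega
        · simp [hi, Ne.symm hi]; omega
      · by_cases hi : k = i
        · subst hi
          simp [hk, Ne.symm hk]
        · simp [hk, hi, Ne.symm hk, Ne.symm hi]
    · simp [hs, Ne.symm hs]
  rw [Nat.cast_sum, Nat.cast_sum]
  rw [Finset.sum_congr rfl (fun s _ => key s), Finset.sum_add_distrib, Finset.sum_sub_distrib,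
    Finset.sum_ite_eq' Finset.univ r, Finset.sum_ite_eq' Finset.univ r,
    if_pos (Finset.mem_univ r), if_pos (Finset.mem_univ r)]

theorem pol_mem_MZ [Fintype σ] (i j : σ) {d : σ → ℤ} {f : MvPolynomial (ρ × σ) K}
    (hf : f ∈ MZ K ρ d) :
    pol K i j f ∈ MZ K ρ (fun k => d k - (if k = j then 1 else 0) + (if k = i then 1 else 0)) := by
  rw [f.as_sum, map_sum]
  refine Submodule.sum_mem _ fun m hm => ?_
  rw [pol_monomial]
  refine Submodule.sum_mem _ fun r _ => ?_
  by_cases hr : m (r, j) = 0
  · rw [hr]; simp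
  · refine Submodule.smul_mem _ _ (monomial_mem_MZ _ fun k => ?_)
    rw [sum_shift i j m r hr k, hf m (mem_support_iff.mp hm) k]

theorem pol_self [Fintype σ] (j : σ) {d : σ → ℤ} {f : MvPolynomial (ρ × σ) K}
    (hf : f ∈ MZ K ρ d) : pol K j j f = (d j : K) • f := by
  conv_lhs => rw [f.as_sum]
  conv_rhs => rw [f.as_sum]
  rw [map_sum, Finset.smul_sum]
  refine Finset.sum_congr rfl fun m hm => ?_
  rw [pol_monomial]
  have h1 : ∀ r : ρ, (m (r, j) : K) •
      monomial (m - Finsupp.single (r, j) 1 + Finsupp.single (r, j) 1) (coeff m f) =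
        (m (r, j) : K) • monomial m (coeff m f) := by
    intro r
    by_cases hr : m (r, j) = 0
    · rw [hr]; simp
    · have e : (m - Finsupp.single (r, j) 1 + Finsupp.single (r, j) 1 : ρ × σ →₀ ℕ) = m := ?_
      · rw [e]
      ext v
      rw [Finsupp.add_apply, Finsupp.tsub_apply, Finsupp.single_apply]
      by_cases hv : (r, j) = v
      · subst hv; simp; omega
      · simp [hv]
  rw [Finset.sum_congr rfl (fun r _ => h1 r), ← Finset.sum_smul]
  congr 1
  have := hf m (mem_support_iff.mp hm) j
  rw [← this]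
  push_cast
  rfl

theorem pow_mem_MZ [Fintype σ] (i j : σ) {d : σ → ℤ} {f : MvPolynomial (ρ × σ) K}
    (hf : f ∈ MZ K ρ d) (n : ℕ) :
    (((pol K i j : Derivation K (MvPolynomial (ρ × σ) K) (MvPolynomial (ρ × σ) K)) :
        MvPolynomial (ρ × σ) K →ₗ[K] MvPolynomial (ρ × σ) K) ^ n) f ∈
      MZ K ρ (fun k => d k - (if k = j then (n : ℤ) else 0) + (if k = i then (n : ℤ) else 0)) := by
  induction n with
  | zero =>
    have : (fun k => d k - (if k = j then ((0 : ℕ) : ℤ) else 0) +
        (if k = i then ((0 : ℕ) : ℤ) else 0)) = d := by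
      funext k; simp
    rw [this, pow_zero]
    exact hf
  | succ n ih =>
    rw [pow_succ']
    have h := pol_mem_MZ i j ih
    have e : (fun k => d k - (if k = j then ((n + 1 : ℕ) : ℤ) else 0) +
        (if k = i then ((n + 1 : ℕ) : ℤ) else 0)) =
        (fun k => d k - (if k = j then (n : ℤ) else 0) + (if k = i then (n : ℤ) else 0) -
          (if k = j then 1 else 0) + (if k = i then 1 else 0)) := by
      funext k
      push_cast
      split_ifs <;> ring
    rw [e]
    exact h

/-- `D_ij` is injective on polynomials with smaller degree in column `i` than in column `j`. -/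
theorem pol_inj [CharZero K] [Fintype σ] {i j : σ} (hij : i ≠ j) {d : σ → ℤ} (hd : d i < d j)
    {f : MvPolynomial (ρ × σ) K} (hf : f ∈ MZ K ρ d) (h0 : pol K i j f = 0) : f = 0 := by
  by_cases hneg : d i < 0
  · exact MZ_eq_zero hf hneg
  obtain ⟨n, hn⟩ : ∃ n : ℕ, d i = n := ⟨(d i).toNat, by omega⟩
  refine sl2_inj
    ((pol K i j : Derivation K (MvPolynomial (ρ × σ) K) (MvPolynomial (ρ × σ) K)) :
        MvPolynomial (ρ × σ) K →ₗ[K] MvPolynomial (ρ × σ) K)
    ((pol K j i : Derivation K (MvPolynomial (ρ × σ) K) (MvPolynomial (ρ × σ) K)) :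
        MvPolynomial (ρ × σ) K →ₗ[K] MvPolynomial (ρ × σ) K)
    (d i - d j) (by omega) f h0 ?_ (n + 1) ?_
  · intro k
    have hk := pow_mem_MZ j i hf k
    set g := (((pol K j i : Derivation K (MvPolynomial (ρ × σ) K) (MvPolynomial (ρ × σ) K)) :
        MvPolynomial (ρ × σ) K →ₗ[K] MvPolynomial (ρ × σ) K) ^ k) f with hg
    have h1 := pol_comm hij g
    have h2 := pol_self i hk
    have h3 := pol_self j hk
    rw [h2, h3, ← sub_smul] at h1
    refine h1.trans ?_
    congr 1
    simp only [if_true, if_neg hij, if_neg hij.symm]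
    push_cast
    ring
  · refine MZ_eq_zero (pow_mem_MZ j i hf (n + 1)) (j := i) ?_
    simp only [if_true, if_neg hij]
    push_cast
    omega

end Vale.Agent.P181.H463
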