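import Vale.Agent.P181.H463.Balance

set_option autoImplicit false
set_option linter.unusedSectionVars false

/-!
The spans of the products of minors (one minor, on the first rows, for every column of a shape)
with given column degrees are stable under polarizations.
-/

open MvPolynomial

namespace Vale.Agent.P181.H463

theorem deriv_prod {K A ι : Type*} [CommSemiring K] [CommSemiring A] [Algebra K A]
    [DecidableEq ι] (D : Derivation K A A) (s : Finset ι) (f : ι → A) :
    D (∏ i ∈ s, f i) = ∑ i ∈ s, (∏ k ∈ s.erase i, f k) * D (f i) := by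
  induction s using Finset.induction_on with
  | empty => simp
  | insert a s ha ih =>
    rw [Finset.prod_insert ha, D.leibniz, ih, Finset.sum_insert ha, Finset.erase_insert ha,
      smul_eq_mul, smul_eq_mul, add_comm, Finset.mul_sum]
    congr 1
    refine Finset.sum_congr rfl fun i hi => ?_
    have hia : a ≠ i := fun h => ha (h ▸ hi)
    rw [Finset.erase_insert_of_ne hia, Finset.prod_insert, mul_assoc]
    exact fun h => ha (Finset.mem_of_mem_erase h)

theorem mul_mem_MZ {K : Type*} [Field K] {ρ σ : Type*} [Fintype ρ] {d e : σ → ℤ}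
    {f g : MvPolynomial (ρ × σ) K} (hf : f ∈ MZ K ρ d) (hg : g ∈ MZ K ρ e) :
    f * g ∈ MZ K ρ (d + e) := by
  classical
  intro m hm j
  rw [coeff_mul] at hm
  obtain ⟨x, hx, hne⟩ := Finset.exists_ne_zero_of_sum_ne_zero hm
  have h1 := hf x.1 (left_ne_zero_of_mul hne) j
  have h2 := hg x.2 (right_ne_zero_of_mul hne) j
  have hx' : x.1 + x.2 = m := Finset.HasAntidiagonal.mem_antidiagonal.mp hx
  rw [← hx', Pi.add_apply, ← h1, ← h2]
  simp only [Finsupp.add_apply, Finset.sum_add_distrib]
  push_cast
  rfl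

theorem one_mem_MZ {K : Type*} [Field K] {ρ σ : Type*} [Fintype ρ] :
    (1 : MvPolynomial (ρ × σ) K) ∈ MZ K ρ (0 : σ → ℤ) := by
  classical
  intro m hm j
  rw [coeff_one] at hm
  by_cases h : 0 = m
  · rw [← h]; simp
  · rw [if_neg h] at hm; exact absurd rfl hm

theorem prod_mem_MZ {K : Type*} [Field K] {ρ σ ι : Type*} [Fintype ρ]
    (s : Finset ι) (d : ι → σ → ℤ) (f : ι → MvPolynomial (ρ × σ) K)
    (hf : ∀ i ∈ s, f i ∈ MZ K ρ (d i)) :
    ∏ i ∈ s, f i ∈ MZ K ρ (∑ i ∈ s, d i) := by
  classical
  induction s using Finset.induction_on with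
  | empty => simpa using one_mem_MZ
  | insert a s ha ih =>
    rw [Finset.prod_insert ha, Finset.sum_insert ha]
    exact mul_mem_MZ (hf a (Finset.mem_insert_self a s))
      (ih fun i hi => hf i (Finset.mem_insert_of_mem hi))

theorem X_mem_MZ {K : Type*} [Field K] {ρ σ : Type*} [Fintype ρ] [DecidableEq ρ]
    [DecidableEq σ] (r : ρ) (k : σ) :
    (X (r, k) : MvPolynomial (ρ × σ) K) ∈ MZ K ρ (fun j => if k = j then 1 else 0) := by
  refine monomial_mem_MZ 1 fun j => ?_
  have h : ∀ s : ρ, (Finsupp.single (r, k) 1 : ρ × σ →₀ ℕ) (s, j) =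
      if s = r then (if k = j then 1 else 0) else 0 := by
    intro s
    rw [Finsupp.single_apply]
    by_cases hs : s = r
    · subst hs
      by_cases hk : k = j
      · subst hk; simp
      · simp [hk]
    · have : ¬ r = s := fun h => hs h.symm
      simp [hs, this]
  rw [Finset.sum_congr rfl (fun s _ => h s), Finset.sum_ite_eq' Finset.univ r,
    if_pos (Finset.mem_univ r)]
  split_ifs <;> rfl

variable {K : Type*} [Field K] {σ : Type*} [DecidableEq σ] {n : ℕ}

/-- The minor on the first `ℓ` rows and the columns `u 0, …, u (ℓ-1)`. -/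
noncomputable def mnr (K : Type*) [Field K] {σ : Type*} {n ℓ : ℕ} (h : ℓ ≤ n) (u : Fin ℓ → σ) :
    MvPolynomial (Fin n × σ) K :=
  (Matrix.of fun r s : Fin ℓ => (X (Fin.castLE h r, u s) : MvPolynomial (Fin n × σ) K)).det

/-- The number of occurrences of the letter `k` in the word `u`. -/
def cw {ℓ : ℕ} (u : Fin ℓ → σ) (k : σ) : ℕ := ∑ s, if u s = k then 1 else 0

theorem cw_update {ℓ : ℕ} (u : Fin ℓ → σ) (s : Fin ℓ) (i k : σ) :
    cw (Function.update u s i) k + (if u s = k then 1 else 0) =
      cw u k + (if i = k then 1 else 0) := by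
  unfold cw
  rw [← Finset.add_sum_erase _ _ (Finset.mem_univ s), ← Finset.add_sum_erase
    (Finset.univ : Finset (Fin ℓ)) (fun s => if u s = k then 1 else 0) (Finset.mem_univ s)]
  have : ∑ x ∈ Finset.univ.erase s, (if Function.update u s i x = k then 1 else 0) =
      ∑ x ∈ Finset.univ.erase s, (if u x = k then 1 else 0) := by
    refine Finset.sum_congr rfl fun x hx => ?_
    rw [Function.update_of_ne (Finset.ne_of_mem_erase hx)]
  rw [this, Function.update_self]
  ring

theorem mnr_mem_MZ {ℓ : ℕ} (h : ℓ ≤ n) (u : Fin ℓ → σ) :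
    mnr K h u ∈ MZ K (Fin n) (fun k => (cw u k : ℤ)) := by
  rw [mnr, Matrix.det_apply]
  refine Submodule.sum_mem _ fun π _ => ?_
  have h1 := prod_mem_MZ (K := K) (ρ := Fin n) (σ := σ) (Finset.univ : Finset (Fin ℓ))
    (fun s j => if u s = j then 1 else 0)
    (fun s => (Matrix.of fun r s : Fin ℓ =>
      (X (Fin.castLE h r, u s) : MvPolynomial (Fin n × σ) K)) (π s) s)
    (fun s _ => X_mem_MZ (Fin.castLE h (π s)) (u s))
  have e : (∑ s : Fin ℓ, fun j => if u s = j then (1 : ℤ) else 0) =
      fun k => (cw u k : ℤ) := by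
    funext k
    rw [Finset.sum_apply, cw]
    push_cast
    rfl
  rw [e] at h1
  rcases Int.units_eq_one_or (Equiv.Perm.sign π) with hs | hs
  · rw [hs, one_smul]; exact h1
  · rw [hs, Units.neg_smul, one_smul]; exact Submodule.neg_mem _ h1

theorem pol_mnr {ℓ : ℕ} (h : ℓ ≤ n) (u : Fin ℓ → σ) (i j : σ) :
    pol K i j (mnr K h u) =
      ∑ s, if u s = j then mnr K h (Function.update u s i) else 0 := by
  have hD : ∀ π : Equiv.Perm (Fin ℓ), pol K i j (∏ s, (X (Fin.castLE h (π s), u s) :
      MvPolynomial (Fin n × σ) K)) = ∑ s, if u s = j then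
        ∏ t, (X (Fin.castLE h (π t), Function.update u s i t) :
          MvPolynomial (Fin n × σ) K) else 0 := by
    intro π
    rw [deriv_prod]
    refine Finset.sum_congr rfl fun s _ => ?_
    rw [pol_X]
    by_cases hs : u s = j
    · rw [if_pos hs, if_pos hs]
      rw [← Finset.prod_erase_mul _ (fun t =>
        (X (Fin.castLE h (π t), Function.update u s i t) : MvPolynomial (Fin n × σ) K))
        (Finset.mem_univ s)]
      rw [Function.update_self]
      congr 1
      refine Finset.prod_congr rfl fun t ht => ?_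
      rw [Function.update_of_ne (Finset.ne_of_mem_erase ht)]
    · rw [if_neg hs, if_neg hs, mul_zero]
  have hdet : ∀ v : Fin ℓ → σ, mnr K h v = ∑ π : Equiv.Perm (Fin ℓ), ((Equiv.Perm.sign π : ℤˣ) : ℤ) •
      ∏ s, (X (Fin.castLE h (π s), v s) : MvPolynomial (Fin n × σ) K) := by
    intro v
    rw [mnr, Matrix.det_apply]
    rfl
  rw [hdet, map_sum]
  have h2 : ∀ π : Equiv.Perm (Fin ℓ), pol K i j (((Equiv.Perm.sign π : ℤˣ) : ℤ) •
      ∏ s, (X (Fin.castLE h (π s), u s) : MvPolynomial (Fin n × σ) K)) =
      ∑ s, if u s = j then ((Equiv.Perm.sign π : ℤˣ) : ℤ) •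
        ∏ t, (X (Fin.castLE h (π t), Function.update u s i t) :
          MvPolynomial (Fin n × σ) K) else 0 := by
    intro π
    rw [map_zsmul, hD, Finset.smul_sum]
    refine Finset.sum_congr rfl fun s _ => ?_
    split_ifs
    · rfl
    · rw [smul_zero]
  rw [Finset.sum_congr rfl (fun π _ => h2 π), Finset.sum_comm]
  refine Finset.sum_congr rfl fun s _ => ?_
  split_ifs
  · rw [hdet]
  · rw [Finset.sum_const_zero]

variable {C : Type*} [Fintype C] [DecidableEq C] {ℓ : C → ℕ}

/-- The product of the minors of the columns of a filling. -/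
noncomputable def prodM (K : Type*) [Field K] {σ : Type*} {n : ℕ} {C : Type*} [Fintype C]
    {ℓ : C → ℕ} (h : ∀ c, ℓ c ≤ n) (T : (c : C) → Fin (ℓ c) → σ) :
    MvPolynomial (Fin n × σ) K :=
  ∏ c, mnr K (h c) (T c)

/-- The number of occurrences of the letter `k` in the filling `T`. -/
def cnt (T : (c : C) → Fin (ℓ c) → σ) (k : σ) : ℕ := ∑ c, cw (T c) k

theorem cnt_update (T : (c : C) → Fin (ℓ c) → σ) (c : C) (s : Fin (ℓ c)) (i k : σ) :
    cnt (Function.update T c (Function.update (T c) s i)) k + (if T c s = k then 1 else 0) =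
      cnt T k + (if i = k then 1 else 0) := by
  unfold cnt
  rw [← Finset.add_sum_erase _ _ (Finset.mem_univ c), ← Finset.add_sum_erase
    (Finset.univ : Finset C) (fun c => cw (T c) k) (Finset.mem_univ c)]
  have : ∑ x ∈ Finset.univ.erase c, cw (Function.update T c (Function.update (T c) s i) x) k =
      ∑ x ∈ Finset.univ.erase c, cw (T x) k := by
    refine Finset.sum_congr rfl fun x hx => ?_
    rw [Function.update_of_ne (Finset.ne_of_mem_erase hx)]
  rw [this, Function.update_self]
  have := cw_update (T c) s i k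
  omega

theorem prodM_mem_MZ (h : ∀ c, ℓ c ≤ n) (T : (c : C) → Fin (ℓ c) → σ) :
    prodM K h T ∈ MZ K (Fin n) (fun k => (cnt T k : ℤ)) := by
  have h1 := prod_mem_MZ (K := K) (ρ := Fin n) (σ := σ) (Finset.univ : Finset C)
    (fun c k => (cw (T c) k : ℤ)) (fun c => mnr K (h c) (T c)) (fun c _ => mnr_mem_MZ (h c) (T c))
  have e : (∑ c : C, fun k => (cw (T c) k : ℤ)) = fun k => (cnt T k : ℤ) := by
    funext k
    rw [Finset.sum_apply, cnt]
    push_cast
    rfl
  rwa [e] at h1

theorem pol_prodM (h : ∀ c, ℓ c ≤ n) (T : (c : C) → Fin (ℓ c) → σ) (i j : σ) :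
    pol K i j (prodM K h T) = ∑ c, ∑ s, if T c s = j then
      prodM K h (Function.update T c (Function.update (T c) s i)) else 0 := by
  rw [prodM, deriv_prod]
  refine Finset.sum_congr rfl fun c _ => ?_
  rw [pol_mnr, Finset.mul_sum]
  refine Finset.sum_congr rfl fun s _ => ?_
  split_ifs with hs
  · rw [prodM, ← Finset.prod_erase_mul _ _ (Finset.mem_univ c), Function.update_self]
    congr 1
    refine Finset.prod_congr rfl fun t ht => ?_
    rw [Function.update_of_ne (Finset.ne_of_mem_erase ht)]
  · rw [mul_zero]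

/-- The set of products of minors with given column degrees. -/
def prodSet (K : Type*) [Field K] {σ : Type*} [DecidableEq σ] {n : ℕ} {C : Type*} [Fintype C]
    {ℓ : C → ℕ} (h : ∀ c, ℓ c ≤ n) (d : σ → ℕ) : Set (MvPolynomial (Fin n × σ) K) :=
  {f | ∃ T : (c : C) → Fin (ℓ c) → σ, cnt T = d ∧ f = prodM K h T}

/-- The span of the products of minors with given column degrees. -/
noncomputable def spanM (K : Type*) [Field K] {σ : Type*} [DecidableEq σ] {n : ℕ} {C : Type*} [Fintype C]
    {ℓ : C → ℕ} (h : ∀ c, ℓ c ≤ n) (d : σ → ℕ) : Submodule K (MvPolynomial (Fin n × σ) K) :=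
  Submodule.span K (prodSet K h d)

theorem prodSet_finite [Fintype σ] (h : ∀ c, ℓ c ≤ n) (d : σ → ℕ) :
    (prodSet K h d).Finite := by
  refine (Set.finite_range (fun T : (c : C) → Fin (ℓ c) → σ => prodM K h T)).subset ?_
  rintro f ⟨T, _, rfl⟩
  exact ⟨T, rfl⟩

theorem stable_spanM [Fintype σ] (h : ∀ c, ℓ c ≤ n) :
    Stable (fun d : σ → ℕ => spanM K h d) where
  deg := by
    intro d
    refine Submodule.span_le.mpr ?_
    rintro f ⟨T, rfl, rfl⟩
    exact prodM_mem_MZ h T
  pol := by
    intro d i j hij f hf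
    have hle : spanM K h (d + Pi.single j 1) ≤ (spanM K h (d + Pi.single i 1)).comap
        ((Vale.Agent.P181.H463.pol K i j :
          Derivation K (MvPolynomial (Fin n × σ) K) (MvPolynomial (Fin n × σ) K)) :
        MvPolynomial (Fin n × σ) K →ₗ[K] MvPolynomial (Fin n × σ) K) := by
      refine Submodule.span_le.mpr ?_
      rintro g ⟨T, hT, rfl⟩
      show Vale.Agent.P181.H463.pol K i j (prodM K h T) ∈ spanM K h (d + Pi.single i 1)
      rw [pol_prodM]
      refine Submodule.sum_mem _ fun c _ => Submodule.sum_mem _ fun s _ => ?_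
      split_ifs with hs
      · refine Submodule.subset_span ⟨_, ?_, rfl⟩
        funext k
        have h1 := cnt_update T c s i k
        rw [hT, hs] at h1
        simp only [Pi.add_apply, Pi.single_apply] at h1 ⊢
        by_cases hkj : k = j
        · subst hkj
          have : ¬ i = k := hij
          simp only [if_true, if_neg this, if_neg (Ne.symm this)] at h1 ⊢
          omega
        · by_cases hki : k = i
          · subst hki
            simp only [if_true, if_neg hkj, if_neg (Ne.symm hkj)] at h1 ⊢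
            omega
          · simp only [if_neg hkj, if_neg (Ne.symm hkj), if_neg hki, if_neg (Ne.symm hki)] at h1 ⊢
            omega
      · exact Submodule.zero_mem _
    exact hle hf
  fin := by
    intro d
    exact Module.Finite.span_of_finite K (prodSet_finite h d)

end Vale.Agent.P181.H463
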