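import Vale.Agent.P181.T6.Spec

set_option autoImplicit false

/-! T6: the rigidity of the labels from the list of zones and tests. -/

namespace Vale.Agent.P181.H463

open Vale.Agent.P181.T6

/-- A permutation of `Fin R` which moves nothing down is the identity. -/
theorem perm_eq_one_of_le {R : ℕ} (π : Equiv.Perm (Fin R)) (h : ∀ r, r ≤ π r) : π = 1 := by
  have h1 : ∑ r : Fin R, ((π r : Fin R) : ℕ) = ∑ r : Fin R, (r : ℕ) :=
    Equiv.sum_comp π (fun r : Fin R => (r : ℕ))
  have h2 : ∀ r ∈ (Finset.univ : Finset (Fin R)), (r : ℕ) = ((π r : Fin R) : ℕ) :=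
    (Finset.sum_eq_sum_iff_of_le (f := fun r : Fin R => (r : ℕ))
      (g := fun r : Fin R => ((π r : Fin R) : ℕ)) (fun r _ => h r)).mp h1.symm
  ext r
  rw [Equiv.Perm.one_apply]
  exact (h2 r (Finset.mem_univ r)).symm

/-- **Rigidity, abstract form.** Three special points per row with multiplicities `rho r j`, normal
points with capacity at most `K` in every row, separated by their rows. -/
theorem rigid_core {R : ℕ} {S Q : Type} (mark cap : S ⊕ Q → ℕ → ℕ) (e : S ≃ Fin R × Fin 3)
    (rho : Fin R → Fin 3 → ℕ) (K : ℕ)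
    (hcapN : ∀ (q : Q) (r : Fin R), cap (Sum.inr q) r ≤ K)
    (hmarkS : ∀ (s : S), rho (e s).1 (e s).2 ≤ mark (Sum.inl s) ((e s).1 : ℕ))
    (hcapS : ∀ (s : S) (r : Fin R),
      cap (Sum.inl s) r ≤ if r = (e s).1 then rho (e s).1 (e s).2 else 0)
    (hK : ∀ r j, K < rho r j) (h01 : ∀ r r', rho r 0 < rho r' 1) (h12 : ∀ r, rho r 1 < rho r 2)
    (h0 : StrictMono fun r => rho r 0)
    (hsep : ∀ p q : Q, p ≠ q → ∃ r : Fin R, 0 < mark (Sum.inr q) r ∧ cap (Sum.inr p) r = 0)
    (π : Equiv.Perm (Fin R)) (σ : Equiv.Perm (S ⊕ Q))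
    (h : ∀ p (r : Fin R), mark (σ p) r ≤ cap p (π r)) : π = 1 ∧ σ = 1 := by
  -- where the special label `(r, j)` sits
  have key : ∀ (r : Fin R) (j : Fin 3), ∃ j' : Fin 3,
      σ (Sum.inl (e.symm (π r, j'))) = Sum.inl (e.symm (r, j)) ∧ rho r j ≤ rho (π r) j' := by
    intro r j
    obtain ⟨p, hp⟩ := σ.surjective (Sum.inl (e.symm (r, j)))
    have h1 := h p r
    rw [hp] at h1
    have h2 := hmarkS (e.symm (r, j))
    rw [Equiv.apply_symm_apply] at h2
    have h3 : rho r j ≤ cap p (π r) := le_trans h2 h1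
    rcases p with s | q
    · have h4 := hcapS s (π r)
      have h5 : π r = (e s).1 := by
        by_contra hne
        rw [if_neg hne] at h4
        have := hK r j
        omega
      rw [if_pos h5] at h4
      refine ⟨(e s).2, ?_, ?_⟩
      · rw [h5, Prod.mk.eta, Equiv.symm_apply_apply]
        exact hp
      · rw [h5]
        exact le_trans h3 h4
    · have h4 := hcapN q (π r)
      have := hK r j
      omega
  choose f hf hf' using key
  have finj : ∀ r, Function.Injective (f r) := by
    intro r j j' hjj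
    have h1 := hf r j
    have h2 := hf r j'
    rw [hjj] at h1
    rw [h1] at h2
    have h3 := e.symm.injective (Sum.inl_injective h2)
    exact (Prod.mk.inj h3).2
  have f1 : ∀ r, f r 1 ≠ 0 := by
    intro r h1
    have h2 := hf' r 1
    rw [h1] at h2
    have := h01 (π r) r
    omega
  have f2 : ∀ r, f r 2 ≠ 0 := by
    intro r h1
    have h2 := hf' r 2
    rw [h1] at h2
    have := h01 (π r) r
    have := h12 r
    omega
  have f0 : ∀ r, f r 0 = 0 := by
    intro r
    have h1 := f1 r
    have h2 := f2 r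
    have h3 : f r 0 ≠ f r 1 := fun h => by simpa using finj r h
    have h4 : f r 0 ≠ f r 2 := fun h => by simpa using finj r h
    have h5 : f r 1 ≠ f r 2 := fun h => by simpa using finj r h
    generalize f r 0 = x at *
    generalize f r 1 = y at *
    generalize f r 2 = z at *
    revert x y z
    decide
  have hπ : π = 1 := by
    apply perm_eq_one_of_le
    intro r
    have h1 := hf' r 0
    rw [f0 r] at h1
    exact h0.le_iff_le.mp h1
  subst hπ
  have f22 : ∀ r, f r 2 = 2 := by
    intro r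
    have h1 := f2 r
    have h2 : f r 2 ≠ 1 := by
      intro h3
      have h4 := hf' r 2
      rw [h3, Equiv.Perm.one_apply] at h4
      have := h12 r
      omega
    generalize f r 2 = z at *
    revert z
    decide
  have f11 : ∀ r, f r 1 = 1 := by
    intro r
    have h1 := f1 r
    have h2 : f r 1 ≠ f r 2 := fun h => by simpa using finj r h
    rw [f22 r] at h2
    generalize f r 1 = z at *
    revert z
    decide
  have fid : ∀ r j, f r j = j := by
    intro r j
    have h : j = 0 ∨ j = 1 ∨ j = 2 := by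
      revert j
      decide
    rcases h with rfl | rfl | rfl
    · exact f0 r
    · exact f11 r
    · exact f22 r
  have hS : ∀ s, σ (Sum.inl s) = Sum.inl s := by
    intro s
    have h1 := hf (e s).1 (e s).2
    rw [fid, Equiv.Perm.one_apply, Prod.mk.eta, Equiv.symm_apply_apply] at h1
    exact h1
  refine ⟨rfl, ?_⟩
  ext p
  rw [Equiv.Perm.one_apply]
  rcases p with s | p
  · exact hS s
  · rcases hq : σ (Sum.inr p) with s | q
    · exfalso
      have h1 : σ (Sum.inr p) = σ (Sum.inl s) := hq.trans (hS s).symm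
      have h2 := σ.injective h1
      exact absurd h2 (by simp)
    · by_cases hpq : p = q
      · rw [hpq]
      · exfalso
        obtain ⟨r, hr, hr'⟩ := hsep p q hpq
        have h1 := h (Sum.inr p) r
        rw [hq, Equiv.Perm.one_apply, hr'] at h1
        omega

/-- **Separation from addresses.** Normal points have a class `kap`, a parity `tau` and digits
`dig`; the rows have a class `rk`, a direction `rt` and a first digit `rx`. -/
theorem sep_of_address {R : ℕ} {Q ι K X : Type} (mark cap : Q → ℕ → ℕ) (kap : Q → K)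
    (dig : Q → ι → X) (rk : Fin R → K) (rt : Fin R → ι) (rx : Fin R → X)
    (hmark : ∀ q t, ∃ r : Fin R, rk r = kap q ∧ rt r = t ∧ rx r = dig q t ∧ 0 < mark q r)
    (hsame : ∀ q (r : Fin R), rk r = kap q → 0 < cap q r → rx r = dig q (rt r))
    (hdiff : ∀ q k, k ≠ kap q → ∃ t, ∀ r : Fin R, rk r = k → rt r = t → cap q r = 0)
    (hinj : ∀ q q', kap q = kap q' → (∀ t, dig q t = dig q' t) → q = q')
    (p q : Q) (hpq : p ≠ q) : ∃ r : Fin R, 0 < mark q r ∧ cap p r = 0 := by
  by_cases hk : kap p = kap q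
  · have h1 : ∃ t, dig p t ≠ dig q t := by
      by_contra hc
      push Not at hc
      exact hpq (hinj p q hk hc)
    obtain ⟨t, ht⟩ := h1
    obtain ⟨r, hr1, hr2, hr3, hr4⟩ := hmark q t
    refine ⟨r, hr4, ?_⟩
    by_contra h0
    have h2 := hsame p r (by rw [hr1, hk]) (Nat.pos_of_ne_zero h0)
    rw [hr2, hr3] at h2
    exact ht h2.symm
  · obtain ⟨t, ht⟩ := hdiff p (kap q) (fun h => hk h.symm)
    obtain ⟨r, hr1, hr2, hr3, hr4⟩ := hmark q t
    exact ⟨r, hr4, ht r hr1 hr2⟩

/-- **Rigidity of a design.** -/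
theorem rigid_of {m R N : ℕ} {T S C : Type} [Fintype T] [Fintype S] [Fintype C]
    (D : Design m R N T S C) (e : S ≃ Fin R × Fin 3) (rho : Fin R → Fin 3 → ℕ) (K : ℕ)
    (hcapN : ∀ (q : Fin N) (r : Fin R), D.cap (Sum.inr q) r ≤ K)
    (hmarkS : ∀ (s : S), rho (e s).1 (e s).2 ≤ D.mark (Sum.inl s) ((e s).1 : ℕ))
    (hcapS : ∀ (s : S) (r : Fin R),
      D.cap (Sum.inl s) r ≤ if r = (e s).1 then rho (e s).1 (e s).2 else 0)
    (hK : ∀ r j, K < rho r j) (h01 : ∀ r r', rho r 0 < rho r' 1) (h12 : ∀ r, rho r 1 < rho r 2)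
    (h0 : StrictMono fun r => rho r 0)
    (hsep : ∀ p q : Fin N, p ≠ q →
      ∃ r : Fin R, 0 < D.mark (Sum.inr q) r ∧ D.cap (Sum.inr p) r = 0) : D.Rigid :=
  fun π σ h => rigid_core D.mark D.cap e rho K hcapN hmarkS hcapS hK h01 h12 h0 hsep π σ h

end Vale.Agent.P181.H463
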