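import Mathlib

set_option autoImplicit false

/-!
Abstract `sl_2` lemma: a vector killed by the raising operator, of negative weight, on which the
lowering operator is nilpotent, is zero.
-/

namespace Vale.Agent.P181.H463

section Sl2

variable {K M : Type*} [Field K] [CharZero K] [AddCommGroup M] [Module K M]

theorem sl2_comm (E F : M →ₗ[K] M) (c : ℤ) (f : M) (hE : E f = 0)
    (hH : ∀ k : ℕ, E (F ((F ^ k) f)) - F (E ((F ^ k) f)) = ((c - 2 * k : ℤ) : K) • (F ^ k) f)
    (k : ℕ) : E ((F ^ (k + 1)) f) = (((k + 1) * (c - k) : ℤ) : K) • (F ^ k) f := by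
  induction k with
  | zero =>
    have h := hH 0
    simp only [pow_zero, Module.End.one_apply, hE, map_zero, sub_zero] at h
    rw [zero_add, pow_one, h]
    simp
  | succ k ih =>
    have h := hH (k + 1)
    rw [ih, map_smul] at h
    have e1 : F ((F ^ k) f) = (F ^ (k + 1)) f := by
      rw [pow_succ' F k]; rfl
    have e2 : F ((F ^ (k + 1)) f) = (F ^ (k + 1 + 1)) f := by
      rw [pow_succ' F (k + 1)]; rfl
    rw [e1, e2, sub_eq_iff_eq_add] at h
    rw [h, ← add_smul]
    congr 1
    push_cast
    ring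

theorem sl2_inj (E F : M →ₗ[K] M) (c : ℤ) (hc : c < 0) (f : M) (hE : E f = 0)
    (hH : ∀ k : ℕ, E (F ((F ^ k) f)) - F (E ((F ^ k) f)) = ((c - 2 * k : ℤ) : K) • (F ^ k) f)
    (n : ℕ) (hF : (F ^ n) f = 0) : f = 0 := by
  induction n with
  | zero => simpa using hF
  | succ n ih =>
    apply ih
    have h := sl2_comm E F c f hE hH n
    rw [hF, map_zero] at h
    have h0 : (((n + 1) * (c - n) : ℤ) : K) ≠ 0 := by
      rw [Int.cast_ne_zero]
      have : (0 : ℤ) ≤ n := Int.natCast_nonneg n
      refine mul_ne_zero (by omega) (by omega)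
    rcases smul_eq_zero.mp h.symm with h1 | h1
    · exact absurd h1 h0
    · exact h1

end Sl2

end Vale.Agent.P181.H463
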