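import Vale.Agent.P181.H502.Surplus
import Mathlib.Data.Fin.Tuple.Sort

set_option autoImplicit false

/-! 502's surplus lemma without the hypothesis that `w` is antitone (the classes are sorted). -/

namespace Vale.Agent.P181.H463

open Finset

/-- The surplus lemma for an arbitrary sequence `w` of class sizes. -/
theorem surplus_any {P : Type*} {R : ℕ} (conf : P → P → Prop) (w : Fin R → ℕ) (m : ℕ)
    (hm : ∀ r, m ≤ w r) (hm0 : 0 < m)
    (pl : Fin R → ℕ → P)
    (hinj : ∀ r g r' g', g < w r → g' < w r' → pl r g = pl r' g' → r = r' ∧ g = g')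
    (hframe : ∀ r r' g, r ≠ r' → g < w r → g < w r' → conf (pl r g) (pl r' g))
    (hchain : ∀ r r' g, r ≠ r' → g < w r → g + 1 < w r' → conf (pl r g) (pl r' (g + 1)))
    (N : P → Finset ℕ)
    (hN : ∀ o, ∀ g ∈ N o, g < m)
    (hNc : ∀ o, (∀ r g, g < w r → o ≠ pl r g) → ∀ g ∈ N o, ∀ r, conf o (pl r g))
    (hsur : ∀ Y : Finset P, (∀ o ∈ Y, ∀ r g, g < w r → o ≠ pl r g) → Y.Nonempty →
        (∀ p ∈ Y, ∀ q ∈ Y, p ≠ q → ¬ conf p q) → Y.card + 1 ≤ (Y.biUnion N).card)
    (X : Fin R → Finset P)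
    (hdis : ∀ r r', r ≠ r' → Disjoint (X r) (X r'))
    (hind : ∀ r, ∀ p ∈ X r, ∀ q ∈ X r, p ≠ q → ¬ conf p q)
    (hcard : ∀ r, (X r).card = w r) :
    ∃ π : Equiv.Perm (Fin R), ∀ r, w (π r) = w r ∧
      ∀ p, p ∈ X r ↔ ∃ g, g < w r ∧ p = pl (π r) g := by
  set s : Equiv.Perm (Fin R) := Tuple.sort (fun r => OrderDual.toDual (w r)) with hs
  have hanti : Antitone (fun r => w (s r)) := by
    have h1 : Monotone ((fun r => OrderDual.toDual (w r)) ∘ s) := Tuple.monotone_sort _
    intro a b hab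
    exact h1 hab
  have hsr : ∀ r, (∃ r', r = s r') := fun r => ⟨s.symm r, (s.apply_symm_apply r).symm⟩
  obtain ⟨π, hπ⟩ := H502.surplus conf (fun r => w (s r)) m hanti (fun r => hm _) hm0
    (fun r g => pl (s r) g)
    (fun r g r' g' h h' he => by
      obtain ⟨h1, h2⟩ := hinj _ g _ g' h h' he
      exact ⟨s.injective h1, h2⟩)
    (fun r r' g hne h h' => hframe _ _ g (fun h3 => hne (s.injective h3)) h h')
    (fun r r' g hne h h' => hchain _ _ g (fun h3 => hne (s.injective h3)) h h')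
    N hN
    (fun o ho g hg r => hNc o (fun r g h => by
      obtain ⟨r', rfl⟩ := hsr r
      exact ho r' g h) g hg (s r))
    (fun Y hY hne hi => hsur Y (fun o ho r g h => by
      obtain ⟨r', rfl⟩ := hsr r
      exact hY o ho r' g h) hne hi)
    (fun r => X (s r)) (fun r r' hne => hdis _ _ (fun h3 => hne (s.injective h3)))
    (fun r => hind _) (fun r => hcard _)
  refine ⟨(s.symm.trans π).trans s, fun r => ?_⟩
  obtain ⟨r', rfl⟩ := hsr r
  have h1 : ((s.symm.trans π).trans s) (s r') = s (π r') := by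
    simp [Equiv.trans_apply]
  rw [h1]
  exact hπ r'

end Vale.Agent.P181.H463
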