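import Mathlib

set_option autoImplicit false

/-! T6 / LB6: the test blocks. -/

namespace Vale.Agent.P181.H463

open Finset

/-- Base `u` digits determine a number below `u ^ m`. -/
theorem eq_of_digits (u m : ℕ) : ∀ a b : ℕ, a < u ^ m → b < u ^ m →
    (∀ t < m, a / u ^ t % u = b / u ^ t % u) → a = b := by
  induction m with
  | zero =>
    intro a b ha hb _
    rw [pow_zero] at ha hb
    omega
  | succ m ih =>
    intro a b ha hb h
    have h0 := h 0 (Nat.succ_pos m)
    rw [pow_zero, Nat.div_one, Nat.div_one] at h0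
    have h1 : a / u = b / u := by
      apply ih
      · rw [Nat.div_lt_iff_lt_mul (by
          rcases Nat.eq_zero_or_pos u with hu | hu
          · subst hu
            rw [zero_pow (Nat.succ_ne_zero m)] at ha
            exact absurd ha (Nat.not_lt_zero a)
          · exact hu)]
        rwa [pow_succ] at ha
      · rw [Nat.div_lt_iff_lt_mul (by
          rcases Nat.eq_zero_or_pos u with hu | hu
          · subst hu
            rw [zero_pow (Nat.succ_ne_zero m)] at ha
            exact absurd ha (Nat.not_lt_zero a)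
          · exact hu)]
        rwa [pow_succ] at hb
      · intro t ht
        have h2 := h (t + 1) (Nat.succ_lt_succ ht)
        rw [pow_succ', ← Nat.div_div_eq_div_mul, ← Nat.div_div_eq_div_mul] at h2
        exact h2
    rw [← Nat.div_add_mod a u, ← Nat.div_add_mod b u, h1, h0]

/-- The rank of an element of a finite set of `Fin N`. -/
def rk {N : ℕ} (A : Finset (Fin N)) (q : Fin N) : ℕ := (A.filter fun q' => q' < q).card

theorem rk_lt {N : ℕ} {A : Finset (Fin N)} {q : Fin N} (hq : q ∈ A) : rk A q < A.card := by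
  unfold rk
  apply card_lt_card
  rw [ssubset_iff_subset_ne]
  refine ⟨filter_subset _ _, fun h => ?_⟩
  rw [← h] at hq
  exact lt_irrefl _ (mem_filter.mp hq).2

theorem rk_strict {N : ℕ} {A : Finset (Fin N)} {q q' : Fin N} (hq : q ∈ A)
    (hqq : q < q') : rk A q < rk A q' := by
  unfold rk
  apply card_lt_card
  rw [ssubset_iff_subset_ne]
  constructor
  · intro x hx
    rw [mem_filter] at hx ⊢
    exact ⟨hx.1, hx.2.trans hqq⟩
  · intro h
    have h1 : q ∈ A.filter fun x => x < q' := mem_filter.mpr ⟨hq, hqq⟩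
    rw [← h] at h1
    exact lt_irrefl _ (mem_filter.mp h1).2

theorem rk_inj {N : ℕ} {A : Finset (Fin N)} {q q' : Fin N} (hq : q ∈ A) (hq' : q' ∈ A)
    (h : rk A q = rk A q') : q = q' := by
  rcases lt_trichotomy q q' with h1 | h1 | h1
  · have := rk_strict hq h1
    omega
  · exact h1
  · have := rk_strict hq' h1
    omega

/-- The number of `q < N` with `q % 4 = k`. -/
theorem card_mod_four (N : ℕ) (k : Fin 4) :
    (univ.filter fun q : Fin N => (q : ℕ) % 4 = (k : ℕ)).card = (N + 3 - k) / 4 := by
  rw [card_filter, Fin.sum_univ_eq_sum_range (fun q => if q % 4 = (k : ℕ) then 1 else 0) N]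
  have hk := k.2
  induction N with
  | zero =>
    rw [sum_range_zero]
    omega
  | succ N ih =>
    rw [sum_range_succ, ih]
    split_ifs <;> omega

/-- **[LT] the test blocks.** -/
theorem exists_tests (N u m Y : ℕ) (hu : 1 ≤ u) (hY : 1 ≤ Y) (hN : N ≤ 4 * u ^ m) :
    ∃ (cl : Fin N → Fin 4) (dig : Fin N → Fin m → Fin u) (pos : Fin N → Fin m → Fin Y)
      (blk : Fin N → Fin m → ℕ) (nb : Fin 4 → Fin m → Fin u → ℕ),
      (∀ q q', cl q = cl q' → (∀ t, dig q t = dig q' t) → q = q') ∧
      (∀ q t, blk q t < nb (cl q) t (dig q t)) ∧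
      (∀ q q' t, cl q = cl q' → dig q t = dig q' t → blk q t = blk q' t →
        pos q t = pos q' t → q = q') ∧
      (∀ k t, Y * ∑ x, nb k t x ≤ (univ.filter fun q => cl q = k).card + u * Y) ∧
      (∀ k, N ≤ 4 * (univ.filter fun q => cl q = k).card + 3) ∧
      (∀ k, 4 * (univ.filter fun q => cl q = k).card ≤ N + 3) := by
  classical
  set cl : Fin N → Fin 4 := fun q => ⟨(q : ℕ) % 4, Nat.mod_lt _ (by norm_num)⟩ with hcl
  set dig : Fin N → Fin m → Fin u := fun q t =>
    ⟨(q : ℕ) / 4 / u ^ (t : ℕ) % u, Nat.mod_lt _ hu⟩ with hdig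
  set A : Fin 4 → Fin m → Fin u → Finset (Fin N) := fun k t x =>
    univ.filter fun q => cl q = k ∧ dig q t = x with hA
  have hmem : ∀ q t, q ∈ A (cl q) t (dig q t) := fun q t =>
    mem_filter.mpr ⟨mem_univ q, rfl, rfl⟩
  have hcard : ∀ k : Fin 4, (univ.filter fun q => cl q = k).card = (N + 3 - k) / 4 := by
    intro k
    rw [← card_mod_four N k]
    congr 1
    apply filter_congr
    intro q _
    rw [Fin.ext_iff]
  refine ⟨cl, dig, fun q t => ⟨rk (A (cl q) t (dig q t)) q % Y, Nat.mod_lt _ hY⟩,
    fun q t => rk (A (cl q) t (dig q t)) q / Y, fun k t x => (A k t x).card / Y + 1,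
    ?_, ?_, ?_, ?_, ?_, ?_⟩
  · intro q q' h1 h2
    have h3 : (q : ℕ) % 4 = (q' : ℕ) % 4 := by
      have := congrArg Fin.val h1
      exact this
    have hlt : ∀ q : Fin N, (q : ℕ) / 4 < u ^ m := by
      intro q
      have := q.2
      omega
    have h4 : (q : ℕ) / 4 = (q' : ℕ) / 4 := by
      apply eq_of_digits u m _ _ (hlt q) (hlt q')
      intro t ht
      have := congrArg Fin.val (h2 ⟨t, ht⟩)
      exact this
    apply Fin.ext
    omega
  · intro q t
    have h1 := rk_lt (hmem q t)
    have h2 := Nat.div_le_div_right (c := Y) h1.le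
    show rk (A (cl q) t (dig q t)) q / Y < (A (cl q) t (dig q t)).card / Y + 1
    omega
  · intro q q' t h1 h2 h3 h4
    have h5 : rk (A (cl q) t (dig q t)) q / Y = rk (A (cl q') t (dig q' t)) q' / Y := h3
    have h6 : rk (A (cl q) t (dig q t)) q % Y = rk (A (cl q') t (dig q' t)) q' % Y :=
      congrArg Fin.val h4
    have h7 : rk (A (cl q) t (dig q t)) q = rk (A (cl q') t (dig q' t)) q' := by
      rw [← Nat.div_add_mod (rk (A (cl q) t (dig q t)) q) Y, h5, h6, Nat.div_add_mod]
    have h8 := hmem q' t
    rw [← h1, ← h2] at h7 h8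
    exact rk_inj (hmem q t) h8 h7
  · intro k t
    have h1 : ∑ x, (A k t x).card = (univ.filter fun q => cl q = k).card := by
      rw [card_eq_sum_card_fiberwise (f := fun q => dig q t) (t := univ)
        (fun x _ => mem_univ _)]
      apply sum_congr rfl
      intro x _
      congr 1
      ext q
      simp only [hA, mem_filter, mem_univ, true_and]
    show Y * ∑ x, ((A k t x).card / Y + 1) ≤ _
    rw [mul_sum, ← h1]
    calc ∑ x, Y * ((A k t x).card / Y + 1) ≤ ∑ x, ((A k t x).card + Y) := by
          apply sum_le_sum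
          intro x _
          have := Nat.mul_div_le (A k t x).card Y
          rw [mul_add, mul_one]
          omega
      _ = ∑ x, (A k t x).card + u * Y := by
          rw [sum_add_distrib, sum_const, card_univ, Fintype.card_fin, smul_eq_mul]
  · intro k
    rw [hcard k]
    have := k.2
    omega
  · intro k
    rw [hcard k]
    have := k.2
    omega

end Vale.Agent.P181.H463
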